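import Vale.Agent.P157.Exact.Flip

open MeasureTheory ProbabilityTheory Real
open scoped RealInnerProductSpace ENNReal

namespace Vale.Agent.P157.Exact

variable {f : ℝ → ℝ} {B : ℝ}

/-- second moment of the tilted law -/
noncomputable def tau (f : ℝ → ℝ) : ℝ := (∫ t, t ^ 2 * Real.exp (f t) ∂γ) / Real.exp (ann f)

lemma integrable_sq_exp (hf : Measurable f) (hB : ∀ s, |f s| ≤ B) :
    Integrable (fun t => t ^ 2 * Real.exp (f t)) γ :=
  integrable_sq_gauss.mul_bdd (c := Real.exp B) (Real.measurable_exp.comp hf).aestronglyMeasurable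
    (Filter.Eventually.of_forall fun t => by
      rw [Real.norm_eq_abs, abs_exp]; exact exp_le_exp.2 (abs_le.1 (hB t)).2)

lemma tau_nonneg : 0 ≤ tau f :=
  div_nonneg (integral_nonneg fun _ => by positivity) (exp_pos _).le

lemma exists_laplace (hf : Measurable f) (hB : ∀ s, |f s| ≤ B) :
    ∃ D : ℝ, 0 ≤ D ∧ ∀ l : ℝ, |l| ≤ 1/16 →
      ∫ t, Real.exp (f t) * Real.exp (l * t ^ 2) ∂γ ≤
        Real.exp (ann f) * Real.exp (l * tau f + D * l ^ 2) := by
  set m := Real.exp (ann f) with hm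
  have hm0 : 0 < m := exp_pos _
  refine ⟨Real.exp B * (128 * K4) / m, by have := one_le_K4; positivity, fun l hl => ?_⟩
  have iS := integrable_sq_exp hf hB
  have hpt : ∀ t, Real.exp (f t) * Real.exp (l * t ^ 2) ≤
      Real.exp (f t) + l * (t ^ 2 * Real.exp (f t)) +
        l ^ 2 * (Real.exp B * (128 * Real.exp (t ^ 2 / 4))) := by
    intro t
    have h := (abs_le.1 (abs_exp_sub (l * t ^ 2))).2
    have h4 : (t ^ 2) ^ 2 ≤ 128 * Real.exp (t ^ 2 / 8) := by
      have := Real.quadratic_le_exp_of_nonneg (show 0 ≤ t ^ 2 / 8 by positivity)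
      linarith [sq_nonneg t]
    have h5 : Real.exp |l * t ^ 2| ≤ Real.exp (t ^ 2 / 8) := by
      refine exp_le_exp.2 ?_
      rw [abs_mul, abs_of_nonneg (sq_nonneg t)]
      nlinarith [sq_nonneg t]
    have h6 : (l * t ^ 2) ^ 2 * Real.exp |l * t ^ 2| ≤ l ^ 2 * (128 * Real.exp (t ^ 2 / 4)) := by
      rw [mul_pow, mul_assoc]
      refine mul_le_mul_of_nonneg_left ((mul_le_mul h4 h5 (exp_pos _).le (by positivity)).trans_eq ?_)
        (sq_nonneg l)
      rw [mul_assoc, ← Real.exp_add]; ring_nf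
    have hfB : Real.exp (f t) ≤ Real.exp B := exp_le_exp.2 (abs_le.1 (hB t)).2
    have h7 : Real.exp (l * t ^ 2) ≤ 1 + l * t ^ 2 + l ^ 2 * (128 * Real.exp (t ^ 2 / 4)) := by linarith
    nlinarith [mul_le_mul_of_nonneg_left h7 (exp_pos (f t)).le,
      mul_le_mul_of_nonneg_right hfB (show 0 ≤ l ^ 2 * (128 * Real.exp (t ^ 2 / 4)) by positivity)]
  have i3 : Integrable (fun t => l ^ 2 * (Real.exp B * (128 * Real.exp (t ^ 2 / 4)))) γ :=
    ((integrable_K4.const_mul _).const_mul _).const_mul _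
  have i2 : Integrable (fun t => Real.exp (f t) + l * (t ^ 2 * Real.exp (f t))) γ :=
    (integrable_exp_f hf hB).add (iS.const_mul l)
  refine (integral_mono_of_nonneg (Filter.Eventually.of_forall fun t => by positivity) (i2.add i3)
    (Filter.Eventually.of_forall hpt)).trans ?_
  simp only [Pi.add_apply]
  rw [integral_add i2 i3, integral_add (integrable_exp_f hf hB) (iS.const_mul l), integral_const_mul,
    integral_const_mul, integral_const_mul, integral_const_mul]
  have := mul_le_mul_of_nonneg_left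
    (Real.add_one_le_exp (l * tau f + Real.exp B * (128 * K4) / m * l ^ 2)) hm0.le
  refine le_trans (le_of_eq ?_) this
  rw [← exp_ann hf hB, ← hm, tau, ← hm]
  unfold K4
  field_simp
  ring

/-- weighted Chernoff bound for sums of squares -/
lemma conc_weighted (hf : Measurable f) (hB : ∀ s, |f s| ≤ B) {η L : ℝ} (hη : 0 < η) (hL : 0 ≤ L) :
    ∃ c : ℝ, 0 < c ∧ ∀ σ : ℝ, |σ| = 1 → ∀ N n : ℕ, (n : ℝ) ≤ L * N →
      ∫ z : Fin n → ℝ, {z : Fin n → ℝ | η * N < σ * (∑ i, z i ^ 2 - n * tau f)}.indicator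
          (fun z => Real.exp (∑ i, f (z i))) z ∂Measure.pi (fun _ => γ)
        ≤ Real.exp (ann f) ^ n * Real.exp (-(c * N)) := by
  obtain ⟨D, hD, hlap⟩ := exists_laplace hf hB
  set l := min (1/16) (η / (2 * (D + 1) * (L + 1))) with hl
  have hl0 : 0 < l := lt_min (by norm_num) (by positivity)
  have hl2 : l * (2 * (D + 1) * (L + 1)) ≤ η := (le_div_iff₀ (by positivity)).1 (min_le_right _ _)
  refine ⟨l * η / 2, by positivity, fun σ hσ N n hn => ?_⟩
  have hσl : |σ * l| ≤ 1/16 := by rw [abs_mul, hσ, one_mul, abs_of_pos hl0]; exact min_le_left _ _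
  have hσ2 : σ ^ 2 = 1 := by rw [← sq_abs, hσ]; norm_num
  have i1 : Integrable (fun t => Real.exp (f t) * Real.exp (σ * l * t ^ 2)) γ :=
    (integrable_exp_sq (by linarith [(abs_le.1 hσl).2])).bdd_mul (c := Real.exp B)
      (Real.measurable_exp.comp hf).aestronglyMeasurable (Filter.Eventually.of_forall fun t => by
        rw [Real.norm_eq_abs, abs_exp]; exact exp_le_exp.2 (abs_le.1 (hB t)).2)
  have ip : Integrable (fun z : Fin n → ℝ => ∏ i, (Real.exp (f (z i)) * Real.exp (σ * l * z i ^ 2)))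
      (Measure.pi fun _ => γ) := Integrable.fintype_prod fun _ => i1
  set K := Real.exp (-(σ * l * (n * tau f)) - l * η * N) with hK
  refine (integral_mono_of_nonneg (Filter.Eventually.of_forall fun z =>
    Set.indicator_nonneg (fun _ _ => (exp_pos _).le) z) (ip.const_mul K)
    (Filter.Eventually.of_forall fun z => ?_)).trans ?_
  · show Set.indicator _ (fun z : Fin n → ℝ => Real.exp (∑ i, f (z i))) z ≤ _
    by_cases hz : z ∈ {z : Fin n → ℝ | η * N < σ * (∑ i, z i ^ 2 - n * tau f)}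
    swap
    · rw [Set.indicator_of_notMem hz]; positivity
    rw [Set.indicator_of_mem hz]
    simp only [Set.mem_ofPred_eq] at hz
    simp only [hK]
    rw [Finset.prod_mul_distrib, ← Real.exp_sum, ← Real.exp_sum, ← Real.exp_add, ← Real.exp_add,
      ← Finset.mul_sum]
    refine exp_le_exp.2 ?_
    nlinarith [mul_lt_mul_of_pos_left hz hl0]
  rw [integral_const_mul, integral_fintype_prod_eq_pow (fun t => Real.exp (f t) * Real.exp (σ * l * t ^ 2)),
    Fintype.card_fin]
  refine (mul_le_mul_of_nonneg_left (pow_le_pow_left₀ (integral_nonneg fun t => by positivity)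
    (hlap _ hσl) n) (exp_pos _).le).trans ?_
  rw [mul_pow, ← Real.exp_nat_mul (σ * l * tau f + D * (σ * l) ^ 2) n, mul_left_comm,
    ← Real.exp_add]
  refine mul_le_mul_of_nonneg_left (exp_le_exp.2 ?_) (by positivity)
  rw [mul_pow, hσ2, one_mul]
  have h1 : (n:ℝ) * (D * l ^ 2) ≤ L * N * (D * l ^ 2) :=
    mul_le_mul_of_nonneg_right hn (by positivity)
  have h2 : l * (2 * (D + 1) * (L + 1)) * (l * N) ≤ η * (l * N) :=
    mul_le_mul_of_nonneg_right hl2 (by positivity)
  have h3 : 0 ≤ (D + L + 1) * (l ^ 2 * N) := by positivity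
  nlinarith

lemma tau_zero : tau (fun _ => (0:ℝ)) = 1 := by
  simp [tau, ann, integral_sq_gauss]

/-- concentration of the squared norm of a Gaussian vector -/
lemma conc_norm {η L : ℝ} (hη : 0 < η) (hL : 0 ≤ L) :
    ∃ c : ℝ, 0 < c ∧ ∀ σ : ℝ, |σ| = 1 → ∀ N n : ℕ, (n : ℝ) ≤ L * N →
      stdGaussian (Vec n) {h | η * N < σ * (‖h‖ ^ 2 - n)} ≤ ENNReal.ofReal (Real.exp (-(c * N))) := by
  obtain ⟨c, hc, h⟩ := conc_weighted (f := fun _ => (0:ℝ)) (B := 0) measurable_const (by simp) hη hL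
  refine ⟨c, hc, fun σ hσ N n hn => ?_⟩
  have h' := h σ hσ N n hn
  set S := {z : Fin n → ℝ | η * N < σ * (∑ i, z i ^ 2 - n * tau (fun _ => (0:ℝ)))} with hS
  have hSm : MeasurableSet S := measurableSet_lt measurable_const (by fun_prop)
  have hann : ann (fun _ => (0:ℝ)) = 0 := by simp [ann]
  simp only [Finset.sum_const_zero, Real.exp_zero, hann, one_pow, one_mul] at h'
  rw [integral_indicator_const _ hSm, smul_eq_mul, mul_one] at h'
  have e : {x : Vec n | η * N < σ * (‖x‖ ^ 2 - n)} = (fun x : Vec n => WithLp.ofLp x) ⁻¹' S := by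
    ext x; simp [hS, tau_zero, EuclideanSpace.real_norm_sq_eq]
  rw [e, (ofLp_preserving n).measure_preimage hSm.nullMeasurableSet, ← ofReal_measureReal]
  exact ENNReal.ofReal_le_ofReal h'

end Vale.Agent.P157.Exact
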