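import Vale.Agent.P157.Tilt

open MeasureTheory ProbabilityTheory Real
open scoped RealInnerProductSpace ENNReal

namespace Vale.Agent.P157.Exact

variable {m n N M : ℕ}

lemma ofLp_preserving (k : ℕ) :
    MeasurePreserving (fun h : Vec k => WithLp.ofLp h) (stdGaussian (Vec k))
      (Measure.pi fun _ : Fin k => γ) := by
  refine ⟨by fun_prop, ?_⟩
  rw [← map_pi_eq_stdGaussian, Measure.map_map (by fun_prop) (by fun_prop)]
  exact Measure.map_id

/-- Transpose a Gaussian array, expressing the new vectors in the basis `b`. -/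
noncomputable def flipB (b : OrthonormalBasis (Fin m) ℝ (Vec m)) (g : Fin m → Vec n) :
    Fin n → Vec m :=
  fun i => ∑ a, g a i • b a

lemma flip_preserving (b : OrthonormalBasis (Fin m) ℝ (Vec m)) :
    MeasurePreserving (flipB (n := n) b) (patterns n m) (patterns m n) := by
  have h : MeasurePreserving (fun (g : Fin m → Vec n) a => WithLp.ofLp (g a)) (patterns n m)
      (Measure.pi fun _ : Fin m => Measure.pi fun _ : Fin n => γ) :=
    measurePreserving_pi (f := fun _ (h : Vec n) => WithLp.ofLp h) _ _ fun _ => ofLp_preserving n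
  exact (preserving_columns b).comp h

/-- The linear map with columns `c`. -/
noncomputable def comb (c : Fin n → Vec m) (w : Vec n) : Vec m := ∑ i, w i • c i

lemma inner_comb_flip (b : OrthonormalBasis (Fin m) ℝ (Vec m)) (g : Fin m → Vec n) (w : Vec n)
    (a : Fin m) : ⟪b a, comb (flipB b g) w⟫ = ⟪g a, w⟫ := by
  simp only [comb, flipB, inner_sum, inner_smul_right]
  simp [PiLp.inner_apply, b.inner_eq_ite, mul_comm]

lemma norm_sq_flip (b : OrthonormalBasis (Fin m) ℝ (Vec m)) (g : Fin m → Vec n) (x : Vec m)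
    (w : Vec n) :
    ‖x + comb (flipB b g) w‖ ^ 2 = ∑ a, (⟪b a, x⟫ + ⟪g a, w⟫) ^ 2 := by
  rw [← b.sum_sq_inner_right (x + comb (flipB b g) w)]
  simp [inner_add_right, inner_comb_flip]

lemma inner_flip_row (e : OrthonormalBasis (Fin n) ℝ (Vec n)) (y : Fin n → Vec m) (w : Vec n)
    (a : Fin m) : ⟪flipB e y a, w⟫ = comb y (e.repr w) a := by
  simp [comb, flipB, sum_inner, real_inner_smul_left, e.repr_apply_apply, mul_comm]

lemma exists_basis_dir (v : Vec (m + 1)) :
    ∃ b : OrthonormalBasis (Fin (m + 1)) ℝ (Vec (m + 1)), ‖v‖ • b 0 = v := by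
  by_cases hv : v = 0
  · exact ⟨EuclideanSpace.basisFun _ ℝ, by simp [hv]⟩
  have hu : ‖‖v‖⁻¹ • v‖ = 1 := by rw [norm_smul, norm_inv, norm_norm, inv_mul_cancel₀ (norm_ne_zero_iff.2 hv)]
  obtain ⟨b, hb⟩ := Orthonormal.exists_orthonormalBasis_extension_of_card_eq (𝕜 := ℝ) (ι := Fin (m+1))
    (v := fun _ : Fin (m+1) => ‖v‖⁻¹ • v) (s := {0}) (by simp) (by
      constructor
      · intro i; simpa [Set.domRestrict] using hu
      · intro i j hij; exact absurd (Subsingleton.elim i j) hij)
  exact ⟨b, by rw [hb 0 (Set.mem_singleton _), smul_inv_smul₀ (norm_ne_zero_iff.2 hv)]⟩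

/-- A basis whose first vector points along `v`. -/
noncomputable def dirBasis (v : Vec (m + 1)) :
    OrthonormalBasis (Fin (m + 1)) ℝ (Vec (m + 1)) := (exists_basis_dir v).choose

lemma dirBasis_smul (v : Vec (m + 1)) : ‖v‖ • dirBasis v 0 = v := (exists_basis_dir v).choose_spec

/-- the coordinates after the first -/
noncomputable def tailV (w : Vec (n + 1)) : Vec n := WithLp.toLp 2 fun i => w i.succ

/-- prepend a coordinate -/
noncomputable def consV (b : ℝ) (w : Vec n) : Vec (n + 1) := WithLp.toLp 2 (Fin.cons b (WithLp.ofLp w))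

@[simp] lemma consV_zero (b : ℝ) (w : Vec n) : consV b w 0 = b := by simp [consV]

@[simp] lemma tailV_consV (b : ℝ) (w : Vec n) : tailV (consV b w) = w := by
  ext i; simp [consV, tailV]

lemma comb_succ (c : Fin (n + 1) → Vec m) (w : Vec (n + 1)) :
    comb c w = w 0 • c 0 + comb (fun i => c i.succ) (tailV w) := by
  simp [comb, tailV, Fin.sum_univ_succ]

lemma norm_sq_split (w : Vec (n + 1)) : ‖w‖ ^ 2 = w 0 ^ 2 + ‖tailV w‖ ^ 2 := by
  simp [EuclideanSpace.real_norm_sq_eq, tailV, Fin.sum_univ_succ]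

/-- the array built from one row, one column and the remaining block -/
noncomputable def assemble (v : Vec (m + 1)) (h : Vec (n + 1)) (c : Fin (n + 1) → Vec m) :
    Fin (n + 1) → Vec (m + 1) :=
  flipB (dirBasis v) (Fin.cons h (flipB (dirBasis h) c))

lemma split_norm (v : Vec (m + 1)) (h : Vec (n + 1)) (x : Vec m) (y : Fin n → Vec m) (s : ℝ)
    (w : Vec (n + 1)) :
    ‖s • v + comb (assemble v h (Fin.cons x y)) w‖ ^ 2 =
      (s * ‖v‖ + ‖h‖ * (dirBasis h).repr w 0) ^ 2 +
      ‖(dirBasis h).repr w 0 • x + comb y (tailV ((dirBasis h).repr w))‖ ^ 2 := by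
  have hv : ∀ i, ⟪dirBasis v i, s • v⟫ = if i = 0 then s * ‖v‖ else 0 := by
    intro i
    have : s • v = (s * ‖v‖) • dirBasis v 0 := by rw [← smul_smul, dirBasis_smul]
    rw [this, inner_smul_right, (dirBasis v).inner_eq_ite, mul_ite, mul_one, mul_zero]
  have hh : ⟪h, w⟫ = ‖h‖ * (dirBasis h).repr w 0 := by
    rw [OrthonormalBasis.repr_apply_apply, ← real_inner_smul_left, dirBasis_smul]
  rw [assemble, norm_sq_flip, Fin.sum_univ_succ, hv, if_pos rfl, Fin.cons_zero, hh,
    EuclideanSpace.real_norm_sq_eq]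
  congr 1
  refine Finset.sum_congr rfl fun a _ => ?_
  rw [hv, if_neg (Fin.succ_ne_zero a), zero_add, Fin.cons_succ, inner_flip_row, comb_succ]
  simp

lemma cons_preserving (N M : ℕ) :
    MeasurePreserving (fun p : Vec N × (Fin M → Vec N) => (Fin.cons p.1 p.2 : Fin (M+1) → Vec N))
      ((stdGaussian (Vec N)).prod (patterns N M)) (patterns N (M + 1)) := by
  have hp := (measurePreserving_piFinSuccAbove (fun _ : Fin (M+1) => stdGaussian (Vec N)) 0).symm
  have e : (fun p : Vec N × (Fin M → Vec N) => (Fin.cons p.1 p.2 : Fin (M+1) → Vec N)) =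
      ⇑(MeasurableEquiv.piFinSuccAbove (fun _ : Fin (M+1) => Vec N) 0).symm := by
    funext p; simp [MeasurableEquiv.piFinSuccAbove, Fin.insertNthEquiv, Fin.insertNth_zero']
  rw [e]; exact hp

lemma measure_cons_le {S : Set (Fin (M + 1) → Vec N)} (hS : MeasurableSet S) {A : Set (Vec N)}
    (hA : MeasurableSet A) {p : ℝ≥0∞}
    (h : ∀ x ∈ A, patterns N M ((fun g => (Fin.cons x g : Fin (M+1) → Vec N)) ⁻¹' S) ≤ p) :
    patterns N (M + 1) S ≤ stdGaussian (Vec N) Aᶜ + p := by
  rw [← (cons_preserving N M).measure_preimage hS.nullMeasurableSet,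
    Measure.prod_apply ((cons_preserving N M).measurable hS)]
  calc _ ≤ ∫⁻ x, (Aᶜ.indicator 1 x + p) ∂stdGaussian (Vec N) := by
        refine lintegral_mono fun x => ?_
        by_cases hx : x ∈ A
        · exact le_add_left (h x hx)
        · simp only [Set.indicator_of_mem (show x ∈ Aᶜ from hx), Pi.one_apply]
          exact le_add_right prob_le_one
    _ = _ := by
        rw [lintegral_add_right _ measurable_const, lintegral_indicator_one hA.compl]
        simp

/-- One step of the row/column recursion. -/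
lemma step_prob (v : Vec (m + 1)) {P : Set (Fin (n + 1) → Vec (m + 1))} (hP : MeasurableSet P)
    (C : Vec m → Set (Fin n → Vec m)) {A : Set (Vec (n + 1))} (hA : MeasurableSet A)
    {B : Set (Vec m)} (hB : MeasurableSet B) {p : ℝ≥0∞}
    (hdet : ∀ h ∈ A, ∀ x ∈ B, ∀ y ∈ C x, assemble v h (Fin.cons x y) ∈ P)
    (hp : ∀ x, patterns m n (C x)ᶜ ≤ p) :
    patterns (m + 1) (n + 1) Pᶜ ≤
      stdGaussian (Vec (n + 1)) Aᶜ + (stdGaussian (Vec m) Bᶜ + p) := by
  have hb := flip_preserving (n := n + 1) (dirBasis v)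
  rw [← hb.measure_preimage hP.compl.nullMeasurableSet]
  refine measure_cons_le (hb.measurable hP.compl) hA fun h hh => ?_
  have he := flip_preserving (n := m) (dirBasis h)
  have hS : MeasurableSet ((fun g => (Fin.cons h g : Fin (m+1) → Vec (n+1))) ⁻¹'
      (flipB (dirBasis v) ⁻¹' Pᶜ)) :=
    (measurable_cons.comp (measurable_const.prodMk measurable_id)) (hb.measurable hP.compl)
  rw [← he.measure_preimage hS.nullMeasurableSet]
  refine measure_cons_le (he.measurable hS) hB fun x hx => le_trans (measure_mono ?_) (hp x)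
  exact fun y hy hC => hy (hdet h hh x hx y hC)

end Vale.Agent.P157.Exact
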