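import Vale.Agent.P157.Overlap
import Vale.Agent.P157.Tilt

open MeasureTheory ProbabilityTheory Real Filter
open scoped RealInnerProductSpace ENNReal Topology

namespace Vale.Agent.P157.Exact

/-- exponential martingale function -/
noncomputable def ex (l x : ℝ) : ℝ := Real.exp (l * x - l ^ 2 / 2)

lemma integral_ex_mul (l : ℝ) (g : ℝ → ℝ) (hg : Measurable g) :
    ∫ x, g x * ex l x ∂γ = ∫ x, g (x + l) ∂γ := by
  have h : γ.map (fun x => x + l) = gaussianReal l 1 := by
    rw [γ, gaussianReal_map_add_const, zero_add]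
  rw [← integral_map (by fun_prop) hg.aestronglyMeasurable, h,
    integral_gaussianReal_eq_integral_smul one_ne_zero,
    integral_gaussianReal_eq_integral_smul one_ne_zero]
  congr 1; funext x
  simp only [gaussianPDFReal_def, ex, smul_eq_mul, NNReal.coe_one]
  rw [show -(x - l) ^ 2 / (2 * 1) = -(x - 0) ^ 2 / (2 * 1) + (l * x - l ^ 2 / 2) by ring, Real.exp_add]
  ring

lemma memLp_ex (l : ℝ) : MemLp (ex l) 2 γ := by
  refine (memLp_two_iff_integrable_sq (by unfold ex; fun_prop)).2 ?_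
  refine ((integrable_exp_mul_gaussianReal (2 * l)).const_mul (Real.exp (-l ^ 2))).congr
    (Filter.Eventually.of_forall fun x => ?_)
  simp only [ex]
  rw [← Real.exp_nat_mul, ← Real.exp_add]
  push_cast; ring_nf

lemma integral_ex_ex (l m : ℝ) : ∫ x, ex m x * ex l x ∂γ = Real.exp (l * m) := by
  rw [integral_ex_mul l (ex m) (by unfold ex; fun_prop)]
  have h : ∀ x, ex m (x + l) = Real.exp (m * l - m ^ 2 / 2) * Real.exp (m * x) := fun x => by
    simp only [ex]; rw [← Real.exp_add]; ring_nf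
  rw [integral_congr_ae (Filter.Eventually.of_forall h), integral_const_mul, integral_exp_lin, ← Real.exp_add]
  ring_nf

lemma integral_pair_ex {q : ℝ} (hq : q ^ 2 ≤ 1) (l m : ℝ) :
    ∫ p, ex l p.1 * ex m (q * p.1 + √(1 - q ^ 2) * p.2) ∂(γ.prod γ) = Real.exp (q * (l * m)) := by
  have h : ∀ p : ℝ × ℝ, ex l p.1 * ex m (q * p.1 + √(1 - q ^ 2) * p.2) =
      Real.exp (-l ^ 2 / 2 - m ^ 2 / 2) *
        (Real.exp ((l + m * q) * p.1) * Real.exp (m * √(1 - q ^ 2) * p.2)) := fun p => by
    simp only [ex, ← Real.exp_add]; ring_nf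
  simp only [h]
  rw [integral_const_mul, integral_prod_mul (fun x => Real.exp ((l + m * q) * x))
    (fun x => Real.exp (m * √(1 - q ^ 2) * x)), integral_exp_lin, integral_exp_lin, ← Real.exp_add,
    ← Real.exp_add]
  congr 1
  have := Real.sq_sqrt (show 0 ≤ 1 - q ^ 2 by linarith)
  linear_combination (m ^ 2 / 2) * this

/-- first Hermite polynomials -/
def H : ℕ → ℝ → ℝ
  | 0 => fun _ => 1
  | 1 => fun x => x
  | 2 => fun x => x ^ 2 - 1
  | 3 => fun x => x ^ 3 - 3 * x
  | _ => fun _ => 0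

lemma measurable_H (k : ℕ) : Measurable (H k) := by
  rcases k with _ | _ | _ | _ | k <;> simp only [H] <;> fun_prop

lemma memLp_pow (j : ℕ) : MemLp (fun x : ℝ => x ^ j) 2 γ := by
  refine (memLp_two_iff_integrable_sq (by fun_prop)).2 ?_
  simp only [← pow_mul]
  rcases Nat.eq_zero_or_pos j with rfl | hj
  · simp
  · simpa [Even.pow_abs (show Even (j * 2) from ⟨j, by ring⟩)] using
      (memLp_gauss (j * 2 : ℕ)).integrable_norm_pow (p := j * 2) (by omega)

lemma memLp_H (k : ℕ) : MemLp (H k) 2 γ := by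
  have h1 : MemLp (fun x : ℝ => x) 2 γ := by simpa using memLp_pow 1
  rcases k with _ | _ | _ | _ | k <;> simp only [H]
  · exact memLp_const 1
  · exact h1
  · exact (memLp_pow 2).sub (memLp_const 1)
  · exact (memLp_pow 3).sub (h1.const_mul 3)
  · exact memLp_const 0

lemma integral_cube : ∫ x, x ^ 3 ∂γ = 0 := by
  have h : γ.map (fun x => -x) = γ := by rw [γ, gaussianReal_map_neg, neg_zero]
  have e : ∫ x, x ^ 3 ∂γ = ∫ x, (-x) ^ 3 ∂γ := by
    conv_lhs => rw [← h, integral_map (by fun_prop) (by fun_prop)]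
  simp only [Odd.neg_pow (show Odd 3 by decide), integral_neg] at e
  linarith

lemma integral_H_ex (l : ℝ) {k : ℕ} (hk : k < 4) : ∫ x, H k x * ex l x ∂γ = l ^ k := by
  rw [integral_ex_mul l (H k) (measurable_H k)]
  have i1 : Integrable (fun x : ℝ => x) γ := by simpa using (memLp_pow 1).integrable one_le_two
  have i2 : Integrable (fun x : ℝ => x ^ 2) γ := integrable_sq_gauss
  have i3 : Integrable (fun x : ℝ => x ^ 3) γ := (memLp_pow 3).integrable one_le_two
  interval_cases k <;> simp only [H]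
  · simp
  · rw [integral_add i1 (integrable_const l), integral_id_gaussianReal]; simp
  · have e : ∀ x : ℝ, (x + l) ^ 2 - 1 = x ^ 2 + ((2 * l) * x + (l ^ 2 - 1)) := fun x => by ring
    have j : Integrable (fun x : ℝ => (2 * l) * x + (l ^ 2 - 1)) γ := (i1.const_mul _).add (integrable_const _)
    simp only [e]
    rw [integral_add i2 j, integral_add (i1.const_mul _) (integrable_const _), integral_sq_gauss,
      integral_const_mul, integral_id_gaussianReal]
    simp
  · have e : ∀ x : ℝ, (x + l) ^ 3 - 3 * (x + l) =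
        x ^ 3 + ((3 * l) * x ^ 2 + ((3 * l ^ 2 - 3) * x + (l ^ 3 - 3 * l))) := fun x => by ring
    have j : Integrable (fun x : ℝ => (3 * l ^ 2 - 3) * x + (l ^ 3 - 3 * l)) γ :=
      (i1.const_mul _).add (integrable_const _)
    have j2 : Integrable (fun x : ℝ => (3 * l) * x ^ 2 + ((3 * l ^ 2 - 3) * x + (l ^ 3 - 3 * l))) γ :=
      (i2.const_mul _).add j
    simp only [e]
    rw [integral_add i3 j2, integral_add (i2.const_mul _) j,
      integral_add (i1.const_mul _) (integrable_const _), integral_cube, integral_const_mul,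
      integral_const_mul, integral_sq_gauss, integral_id_gaussianReal]
    simp

/-- exponentials are dense in `L²(γ)` -/
lemma eq_zero_of_orth {V : ℝ → ℝ} (hVm : Measurable V) (hV : MemLp V 2 γ)
    (h : ∀ l, ∫ x, V x * ex l x ∂γ = 0) : V =ᵐ[γ] 0 := by
  set νp := γ.withDensity fun x => ENNReal.ofReal (V x)
  set νn := γ.withDensity fun x => ENNReal.ofReal (-V x)
  have iV : Integrable V γ := hV.integrable one_le_two
  have : IsFiniteMeasure νp := isFiniteMeasure_withDensity_ofReal iV.2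
  have : IsFiniteMeasure νn := isFiniteMeasure_withDensity_ofReal iV.neg.2
  have iE : ∀ t, Integrable (fun x => V x * Real.exp (t * x)) γ := by
    intro t
    have : Integrable (fun x => V x * ex t x) γ := hV.integrable_mul (memLp_ex t)
    refine (this.const_mul (Real.exp (t ^ 2 / 2))).congr (Filter.Eventually.of_forall fun x => ?_)
    simp only [ex]
    rw [mul_left_comm, ← Real.exp_add]; ring_nf
  have hp : ∀ t, Integrable (fun x => Real.exp (t * x)) νp := by
    intro t
    refine (integrable_withDensity_iff (by fun_prop) (Filter.Eventually.of_forall fun x => ENNReal.ofReal_lt_top)).2 ?_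
    refine (iE t).norm.mono' (by fun_prop) (Filter.Eventually.of_forall fun x => ?_)
    rw [Real.norm_eq_abs, Real.norm_eq_abs, ENNReal.toReal_ofReal', abs_mul, abs_mul, mul_comm (|V x|)]
    refine mul_le_mul_of_nonneg_left ?_ (abs_nonneg _)
    rw [abs_of_nonneg (le_max_right _ _)]
    exact max_le (le_abs_self _) (abs_nonneg _)
  have hn : ∀ t, Integrable (fun x => Real.exp (t * x)) νn := by
    intro t
    refine (integrable_withDensity_iff (by fun_prop) (Filter.Eventually.of_forall fun x => ENNReal.ofReal_lt_top)).2 ?_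
    refine (iE t).norm.mono' (by fun_prop) (Filter.Eventually.of_forall fun x => ?_)
    rw [Real.norm_eq_abs, Real.norm_eq_abs, ENNReal.toReal_ofReal', abs_mul, abs_mul, mul_comm (|V x|)]
    refine mul_le_mul_of_nonneg_left ?_ (abs_nonneg _)
    rw [abs_of_nonneg (le_max_right _ _)]
    exact max_le (neg_le_abs _) (abs_nonneg _)
  have hmgf : mgf id νp = mgf id νn := by
    funext t
    simp only [mgf, id_eq, νp, νn]
    rw [integral_withDensity_eq_integral_toReal_smul (by fun_prop)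
        (Filter.Eventually.of_forall fun x => ENNReal.ofReal_lt_top),
      integral_withDensity_eq_integral_toReal_smul (by fun_prop)
        (Filter.Eventually.of_forall fun x => ENNReal.ofReal_lt_top), ← sub_eq_zero]
    simp only [ENNReal.toReal_ofReal', smul_eq_mul]
    have ip : Integrable (fun x => max (V x) 0 * Real.exp (t * x)) γ := by
      have := (integrable_withDensity_iff (by fun_prop)
        (Filter.Eventually.of_forall fun x => ENNReal.ofReal_lt_top)).1 (hp t)
      simpa [ENNReal.toReal_ofReal', mul_comm] using this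
    have iN : Integrable (fun x => max (-V x) 0 * Real.exp (t * x)) γ := by
      have := (integrable_withDensity_iff (by fun_prop)
        (Filter.Eventually.of_forall fun x => ENNReal.ofReal_lt_top)).1 (hn t)
      simpa [ENNReal.toReal_ofReal', mul_comm] using this
    rw [← integral_sub ip iN]
    have e : ∀ x, max (V x) 0 * Real.exp (t * x) - max (-V x) 0 * Real.exp (t * x) =
        Real.exp (t ^ 2 / 2) * (V x * ex t x) := by
      intro x
      have : max (V x) 0 - max (-V x) 0 = V x := by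
        rcases le_total 0 (V x) with hx | hx <;> simp [hx]
      rw [← sub_mul, this, ex, mul_left_comm, ← Real.exp_add]; ring_nf
    simp only [e, integral_const_mul, h t, mul_zero]
  have huniv : integrableExpSet id νp = Set.univ := Set.eq_univ_of_forall fun t => hp t
  have hz : νp = 0 ↔ νn = 0 := by
    have := congrFun hmgf 0
    simp [mgf] at this
    constructor <;> intro hh <;> rw [hh] at this <;> simpa [eq_comm (a := (0:ℝ)), measureReal_eq_zero_iff] using this
  have heq : νp = νn := by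
    refine Measure.ext_of_complexMGF_id_eq (funext fun z => ?_)
    exact eqOn_complexMGF_of_mgf' hmgf hz (by simp [huniv])
  have h2 := (withDensity_eq_iff (by fun_prop) (by fun_prop) ?_).1 heq
  · filter_upwards [h2] with x hx
    rcases le_total 0 (V x) with hx0 | hx0
    · rw [ENNReal.ofReal_eq_zero.2 (neg_nonpos.2 hx0), ENNReal.ofReal_eq_zero] at hx
      exact le_antisymm hx hx0
    · rw [ENNReal.ofReal_eq_zero.2 hx0, eq_comm, ENNReal.ofReal_eq_zero, neg_nonpos] at hx
      exact le_antisymm hx0 hx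
  · exact (lt_of_le_of_lt (lintegral_mono fun x => Real.ofReal_le_enorm (V x)) iV.2).ne

lemma exists_approx {U : ℝ → ℝ} (hU : MemLp U 2 γ) {δ : ℝ} (hδ : 0 < δ) :
    ∃ (s : Finset ℝ) (a : ℝ → ℝ), ∫ x, (U x - ∑ l ∈ s, a l * ex l x) ^ 2 ∂γ ≤ δ := by
  set e : ℝ → Lp ℝ 2 γ := fun l => (memLp_ex l).toLp (ex l)
  set K := Submodule.span ℝ (Set.range e)
  have hK : Kᗮ = ⊥ := by
    refine (Submodule.eq_bot_iff _).2 fun V hV => ?_
    refine Lp.ext ?_
    refine (eq_zero_of_orth (Lp.stronglyMeasurable V).measurable (Lp.memLp V) fun l => ?_).trans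
      (Lp.coeFn_zero ℝ 2 γ).symm
    have h := (Submodule.mem_orthogonal' K V).1 hV (e l) (Submodule.subset_span ⟨l, rfl⟩)
    rw [MeasureTheory.L2.inner_def] at h
    rw [← h]
    refine integral_congr_ae ((memLp_ex l).coeFn_toLp.mono fun x hx => ?_)
    simp only [e, RCLike.inner_apply, conj_trivial, hx]
    ring
  have hmem : hU.toLp U ∈ closure (K : Set (Lp ℝ 2 γ)) := by
    rw [← Submodule.topologicalClosure_coe, (Submodule.topologicalClosure_eq_top_iff).2 hK]
    trivial
  obtain ⟨V, hV, hd⟩ := Metric.mem_closure_iff.1 hmem (√δ) (Real.sqrt_pos.2 hδ)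
  obtain ⟨c, rfl⟩ := (Finsupp.mem_span_range_iff_exists_finsupp).1 hV
  refine ⟨c.support, c, ?_⟩
  have hcoe : ∀ s : Finset ℝ, ⇑(∑ l ∈ s, c l • e l) =ᵐ[γ] fun x => ∑ l ∈ s, c l * ex l x := by
    intro s
    induction s using Finset.induction_on with
    | empty =>
      simp only [Finset.sum_empty]
      exact Lp.coeFn_zero ℝ 2 γ
    | insert l s hl ih =>
      rw [Finset.sum_insert hl]
      filter_upwards [Lp.coeFn_add (c l • e l) (∑ j ∈ s, c j • e j), Lp.coeFn_smul (c l) (e l),
        (memLp_ex l).coeFn_toLp, ih] with x h1 h2 h3 h4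
      rw [h1, Pi.add_apply, h2, Pi.smul_apply, h4, Finset.sum_insert hl]
      simp [e, h3]
  rw [Finsupp.sum] at hd
  set D := hU.toLp U - ∑ l ∈ c.support, c l • e l
  have hn : ‖D‖ ^ 2 ≤ δ := by
    rw [dist_eq_norm] at hd
    exact (pow_le_pow_left₀ (norm_nonneg _) hd.le 2).trans_eq (Real.sq_sqrt hδ.le)
  rw [← real_inner_self_eq_norm_sq, MeasureTheory.L2.inner_def] at hn
  refine le_trans (le_of_eq (integral_congr_ae ?_)) hn
  filter_upwards [Lp.coeFn_sub (hU.toLp U) (∑ l ∈ c.support, c l • e l), hU.coeFn_toLp,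
    hcoe c.support] with x h1 h2 h3
  simp only [D, h1, Pi.sub_apply, h2, h3, RCLike.inner_apply, conj_trivial]
  ring

/-- `∫ A(X) B(Y)` for correlated standard Gaussians -/
noncomputable def pairB (q : ℝ) (A B : ℝ → ℝ) : ℝ :=
  ∫ p, A p.1 * B (q * p.1 + √(1 - q ^ 2) * p.2) ∂(γ.prod γ)

lemma second_preserving {q : ℝ} (hq : q ^ 2 ≤ 1) :
    MeasurePreserving (fun p : ℝ × ℝ => q * p.1 + √(1 - q ^ 2) * p.2) (γ.prod γ) γ :=
  ⟨by fun_prop, map_second q hq⟩

lemma integrable_pairB {q : ℝ} (hq : q ^ 2 ≤ 1) {A B : ℝ → ℝ} (hA : MemLp A 2 γ) (hB : MemLp B 2 γ) :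
    Integrable (fun p : ℝ × ℝ => A p.1 * B (q * p.1 + √(1 - q ^ 2) * p.2)) (γ.prod γ) :=
  (hA.comp_measurePreserving measurePreserving_fst).integrable_mul
    (hB.comp_measurePreserving (second_preserving hq))

lemma abs_integral_mul_le {α : Type*} {mα : MeasurableSpace α} {ν : Measure α} {A B : α → ℝ}
    (hA : MemLp A 2 ν) (hB : MemLp B 2 ν) {t : ℝ} (ht : 0 < t) :
    |∫ x, A x * B x ∂ν| ≤ (t * ∫ x, A x ^ 2 ∂ν + (∫ x, B x ^ 2 ∂ν) / t) / 2 := by
  have i : Integrable (fun x => (t * A x ^ 2 + B x ^ 2 / t) / 2) ν :=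
    ((hA.integrable_sq.const_mul t).add (hB.integrable_sq.div_const t)).div_const 2
  rw [← Real.norm_eq_abs]
  refine (norm_integral_le_of_norm_le i (Filter.Eventually.of_forall fun x => ?_)).trans_eq ?_
  · rw [Real.norm_eq_abs]
    have h := sq_nonneg (t * |A x| - |B x|)
    have e : (t * A x ^ 2 + B x ^ 2 / t) / 2 - |A x * B x| = (t * |A x| - |B x|) ^ 2 / (2 * t) := by
      rw [abs_mul]; field_simp
      linear_combination -(t ^ 2) * (sq_abs (A x)) - sq_abs (B x)
    linarith [div_nonneg h (show 0 ≤ 2 * t by positivity)]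
  · rw [integral_div, integral_add (hA.integrable_sq.const_mul t) (hB.integrable_sq.div_const t),
      integral_const_mul, integral_div]

lemma integral_pairB_sq {q : ℝ} (hq : q ^ 2 ≤ 1) {A B : ℝ → ℝ} (hA : MemLp A 2 γ) (hB : MemLp B 2 γ)
    {t : ℝ} (ht : 0 < t) : |pairB q A B| ≤ (t * ∫ x, A x ^ 2 ∂γ + (∫ x, B x ^ 2 ∂γ) / t) / 2 := by
  refine (abs_integral_mul_le (ν := γ.prod γ) (hA.comp_measurePreserving measurePreserving_fst)
    (hB.comp_measurePreserving (second_preserving hq)) ht).trans_eq ?_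
  simp only [Function.comp_apply]
  have e1 : ∫ p : ℝ × ℝ, A p.1 ^ 2 ∂(γ.prod γ) = ∫ x, A x ^ 2 ∂γ := by
    rw [integral_fun_fst (fun x => A x ^ 2)]; simp
  have e2 : ∫ p : ℝ × ℝ, B (q * p.1 + √(1 - q ^ 2) * p.2) ^ 2 ∂(γ.prod γ) = ∫ x, B x ^ 2 ∂γ := by
    conv_rhs => rw [← (second_preserving hq).map_eq]
    exact (integral_map (second_preserving hq).measurable.aemeasurable
      (by rw [(second_preserving hq).map_eq]; exact hB.integrable_sq.1)).symm
  rw [e1, e2]

/-- the truncation functional -/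
noncomputable def excess (d : ℕ) (q : ℝ) (U : ℝ → ℝ) : ℝ :=
  pairB q U U - q ^ d * ∫ x, U x ^ 2 ∂γ -
    ∑ k ∈ Finset.range d, (q ^ k - q ^ d) / k.factorial * (∫ x, H k x * U x ∂γ) ^ 2

lemma excess_combo {d : ℕ} (hd : d ≤ 4) (hd2 : Even d) {q : ℝ} (hq : q ^ 2 ≤ 1) (s : Finset ℝ)
    (a : ℝ → ℝ) : excess d q (fun x => ∑ l ∈ s, a l * ex l x) ≤ 0 := by
  set A := fun k : ℕ => ∑ l ∈ s, a l * l ^ k
  set g := fun k : ℕ => (q ^ k - q ^ d) / k.factorial * A k ^ 2
  have hH : ∀ k < d, ∫ x, H k x * (∑ l ∈ s, a l * ex l x) ∂γ = A k := by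
    intro k hk
    simp only [Finset.mul_sum]
    rw [integral_finsetSum]
    · refine Finset.sum_congr rfl fun l _ => ?_
      simp only [mul_left_comm (H k _), integral_const_mul, integral_H_ex l (by omega : k < 4)]
    · intro l _
      exact (memLp_H k).integrable_mul ((memLp_ex l).const_mul (a l))
  have hsum : ∀ u : ℝ, HasSum (fun k : ℕ => u ^ k / k.factorial * A k ^ 2)
      (∑ i ∈ s, ∑ j ∈ s, a i * a j * Real.exp (u * (i * j))) := by
    intro u
    have : (fun k : ℕ => u ^ k / k.factorial * A k ^ 2) =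
        fun k => ∑ i ∈ s, ∑ j ∈ s, a i * a j * ((u * (i * j)) ^ k / k.factorial) := by
      funext k
      simp only [A]
      rw [sq, Finset.sum_mul_sum, Finset.mul_sum]
      refine Finset.sum_congr rfl fun i _ => ?_
      rw [Finset.mul_sum]
      refine Finset.sum_congr rfl fun j _ => ?_
      rw [mul_pow, mul_pow]; ring
    rw [this]
    refine hasSum_sum fun i _ => hasSum_sum fun j _ => HasSum.mul_left _ ?_
    rw [Real.exp_eq_exp_ℝ]
    exact NormedSpace.expSeries_div_hasSum_exp _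
  have hp : pairB q (fun x => ∑ l ∈ s, a l * ex l x) (fun x => ∑ l ∈ s, a l * ex l x) =
      ∑ i ∈ s, ∑ j ∈ s, a i * a j * Real.exp (q * (i * j)) := by
    have e : ∀ p : ℝ × ℝ, (∑ l ∈ s, a l * ex l p.1) *
        (∑ l ∈ s, a l * ex l (q * p.1 + √(1 - q ^ 2) * p.2)) =
        ∑ i ∈ s, ∑ j ∈ s, a i * a j * (ex i p.1 * ex j (q * p.1 + √(1 - q ^ 2) * p.2)) := fun p => by
      rw [Finset.sum_mul_sum]
      exact Finset.sum_congr rfl fun i _ => Finset.sum_congr rfl fun j _ => by ring
    simp only [pairB, e]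
    have ii : ∀ i j, Integrable (fun p : ℝ × ℝ => a i * a j *
        (ex i p.1 * ex j (q * p.1 + √(1 - q ^ 2) * p.2))) (γ.prod γ) :=
      fun i j => (integrable_pairB hq (memLp_ex i) (memLp_ex j)).const_mul _
    rw [integral_finsetSum _ fun i _ => integrable_finsetSum _ fun j _ => ii i j]
    refine Finset.sum_congr rfl fun i _ => ?_
    rw [integral_finsetSum _ fun j _ => ii i j]
    refine Finset.sum_congr rfl fun j _ => ?_
    rw [integral_const_mul, integral_pair_ex hq]
  have hsq : ∫ x, (∑ l ∈ s, a l * ex l x) ^ 2 ∂γ = ∑ i ∈ s, ∑ j ∈ s, a i * a j * Real.exp (1 * (i * j)) := by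
    have e : ∀ x, (∑ l ∈ s, a l * ex l x) ^ 2 = ∑ i ∈ s, ∑ j ∈ s, a i * a j * (ex i x * ex j x) := fun x => by
      rw [sq, Finset.sum_mul_sum]
      exact Finset.sum_congr rfl fun i _ => Finset.sum_congr rfl fun j _ => by ring
    simp only [e]
    have ii : ∀ i j, Integrable (fun x => a i * a j * (ex i x * ex j x)) γ :=
      fun i j => ((memLp_ex i).integrable_mul (memLp_ex j)).const_mul _
    rw [integral_finsetSum _ fun i _ => integrable_finsetSum _ fun j _ => ii i j]
    refine Finset.sum_congr rfl fun i _ => ?_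
    rw [integral_finsetSum _ fun j _ => ii i j]
    refine Finset.sum_congr rfl fun j _ => ?_
    rw [integral_const_mul, integral_ex_ex, one_mul, mul_comm j i]
  have hg : HasSum g ((∑ i ∈ s, ∑ j ∈ s, a i * a j * Real.exp (q * (i * j))) -
      q ^ d * ∑ i ∈ s, ∑ j ∈ s, a i * a j * Real.exp (1 * (i * j))) := by
    refine ((hsum q).sub ((hsum 1).mul_left (q ^ d))).congr_fun fun k => ?_
    simp only [g, one_pow]; ring
  have h := (hasSum_nat_add_iff' d).2 hg
  have hle : ∀ k, g (k + d) ≤ 0 := by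
    intro k
    refine mul_nonpos_of_nonpos_of_nonneg (div_nonpos_of_nonpos_of_nonneg (sub_nonpos.2 ?_)
      (by positivity)) (sq_nonneg _)
    obtain ⟨e, rfl⟩ := hd2
    rw [pow_add]
    refine mul_le_of_le_one_left (Even.pow_nonneg ⟨e, rfl⟩ q) ?_
    refine (le_abs_self _).trans ?_
    rw [abs_pow]
    exact pow_le_one₀ (abs_nonneg q) ((sq_le_one_iff_abs_le_one q).1 hq)
  have := hasSum_le hle h hasSum_zero
  unfold excess
  have e : ∑ k ∈ Finset.range d, (q ^ k - q ^ d) / k.factorial *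
      (∫ x, H k x * (∑ l ∈ s, a l * ex l x) ∂γ) ^ 2 = ∑ k ∈ Finset.range d, g k :=
    Finset.sum_congr rfl fun k hk => by rw [hH k (Finset.mem_range.1 hk)]
  rw [hp, hsq, e]
  linarith

lemma excess_nonpos {d : ℕ} (hd : d ≤ 4) (hd2 : Even d) {q : ℝ} (hq : q ^ 2 ≤ 1) {U : ℝ → ℝ}
    (hU : MemLp U 2 γ) : excess d q U ≤ 0 := by
  choose s a hsa using fun n : ℕ => exists_approx hU (show (0:ℝ) < 1 / ((n:ℝ) + 1) ^ 2 by positivity)
  set V := fun (n : ℕ) (x : ℝ) => ∑ l ∈ s n, a n l * ex l x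
  set D := fun (n : ℕ) (x : ℝ) => U x - V n x
  have hV : ∀ n, MemLp (V n) 2 γ := fun n => memLp_finsetSum _ fun l _ => (memLp_ex l).const_mul _
  have hD : ∀ n, MemLp (D n) 2 γ := fun n => hU.sub (hV n)
  set t := fun n : ℕ => 1 / ((n:ℝ) + 1)
  have ht : Tendsto t atTop (𝓝 0) := tendsto_one_div_add_atTop_nhds_zero_nat
  have ht0 : ∀ n, 0 < t n := fun n => by positivity
  have hDt : ∀ n, ∫ x, D n x ^ 2 ∂γ ≤ t n ^ 2 := fun n => (hsa n).trans_eq (by simp [t])
  have small : ∀ (A : ℝ → ℝ) (T : ℕ → ℝ), (∀ n, |T n| ≤ (t n * ∫ x, A x ^ 2 ∂γ + (∫ x, D n x ^ 2 ∂γ) / t n) / 2) →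
      Tendsto T atTop (𝓝 0) := by
    intro A T hT
    refine squeeze_zero_norm (a := fun n => t n * (((∫ x, A x ^ 2 ∂γ) + 1) / 2)) (fun n => ?_) (by simpa using ht.mul_const _)
    rw [Real.norm_eq_abs]
    refine (hT n).trans ?_
    have : (∫ x, D n x ^ 2 ∂γ) / t n ≤ t n := by rw [div_le_iff₀ (ht0 n), ← sq]; exact hDt n
    linarith
  have hH : ∀ k, Tendsto (fun n => ∫ x, H k x * V n x ∂γ) atTop (𝓝 (∫ x, H k x * U x ∂γ)) := by
    intro k
    have h0 := small (H k) (fun n => ∫ x, H k x * D n x ∂γ)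
      fun n => abs_integral_mul_le (memLp_H k) (hD n) (ht0 n)
    have := h0.const_sub (∫ x, H k x * U x ∂γ)
    rw [sub_zero] at this
    refine this.congr fun n => ?_
    rw [← integral_sub (f := fun x => H k x * U x) (g := fun x => H k x * D n x)
      ((memLp_H k).integrable_mul hU) ((memLp_H k).integrable_mul (hD n))]
    simp only [D, Pi.mul_apply]; congr 1; funext x; ring
  have hS : Tendsto (fun n => ∫ x, V n x ^ 2 ∂γ) atTop (𝓝 (∫ x, U x ^ 2 ∂γ)) := by
    have h1 := small U (fun n => ∫ x, U x * D n x ∂γ) fun n => abs_integral_mul_le hU (hD n) (ht0 n)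
    have h2 : Tendsto (fun n => ∫ x, D n x ^ 2 ∂γ) atTop (𝓝 0) :=
      squeeze_zero (fun n => integral_nonneg fun x => sq_nonneg _) hDt (by simpa using ht.pow 2)
    have := ((h1.const_mul 2).const_sub (∫ x, U x ^ 2 ∂γ)).add h2
    rw [mul_zero, sub_zero, add_zero] at this
    refine this.congr fun n => ?_
    have i1 := ((hU.integrable_mul (hD n)).const_mul 2)
    simp only [Pi.mul_apply] at i1
    rw [← integral_const_mul, ← integral_sub hU.integrable_sq i1,
      ← integral_add (f := fun x => U x ^ 2 - 2 * (U x * D n x)) (hU.integrable_sq.sub i1) (hD n).integrable_sq]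
    congr 1; funext x; simp only [D]; ring
  have hP : Tendsto (fun n => pairB q (V n) (V n)) atTop (𝓝 (pairB q U U)) := by
    have h1 := small U (fun n => pairB q U (D n)) fun n => integral_pairB_sq hq hU (hD n) (ht0 n)
    have h2 := small U (fun n => pairB q (D n) U) fun n => by
      refine (integral_pairB_sq hq (hD n) hU (inv_pos.2 (ht0 n))).trans_eq ?_
      rw [div_inv_eq_mul, inv_mul_eq_div]; ring
    have h3 : Tendsto (fun n => pairB q (D n) (D n)) atTop (𝓝 0) := by
      refine squeeze_zero_norm (fun n => ?_) (by simpa using ht.pow 2)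
      rw [Real.norm_eq_abs]
      refine (integral_pairB_sq hq (hD n) (hD n) one_pos).trans ?_
      linarith [hDt n]
    have := ((h1.const_sub (pairB q U U)).sub h2).add h3
    rw [sub_zero, sub_zero, add_zero] at this
    refine this.congr fun n => ?_
    unfold pairB
    have a1 := integrable_pairB hq hU hU
    have a2 := integrable_pairB hq hU (hD n)
    have a3 := integrable_pairB hq (hD n) hU
    have a4 := integrable_pairB hq (hD n) (hD n)
    rw [← integral_sub a1 a2, ← integral_sub ?_ a3, ← integral_add ?_ a4]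
    · congr 1; funext p; simp only [D]; ring
    · exact (a1.sub a2).sub a3
    · exact a1.sub a2
  have lim : Tendsto (fun n => excess d q (V n)) atTop (𝓝 (excess d q U)) :=
    ((hP.sub (hS.const_mul _)).sub (tendsto_finsetSum _ fun k _ => ((hH k).pow 2).const_mul _))
  exact le_of_tendsto' lim fun n => excess_combo hd hd2 hq (s n) (a n)

lemma pairFun_le_two {U : ℝ → ℝ} (hU : MemLp U 2 γ) (h1 : ∫ x, x * U x ∂γ = 0) {q : ℝ}
    (hq : q ^ 2 ≤ 1) :
    pairFun U q ≤ (∫ x, U x ∂γ) ^ 2 + q ^ 2 * (∫ x, U x ^ 2 ∂γ - (∫ x, U x ∂γ) ^ 2) := by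
  have h := excess_nonpos (d := 2) (by norm_num) even_two hq hU
  simp [excess, Finset.sum_range_succ, H, h1, Nat.factorial] at h
  unfold pairB at h
  unfold pairFun
  linarith

lemma pairFun_le_four {U : ℝ → ℝ} (hU : MemLp U 2 γ) (h1 : ∫ x, x * U x ∂γ = 0)
    (h3 : ∫ x, (x ^ 3 - 3 * x) * U x ∂γ = 0) {q : ℝ} (hq : q ^ 2 ≤ 1) :
    pairFun U q ≤ (∫ x, U x ∂γ) ^ 2 + q ^ 2 * ((∫ x, (x ^ 2 - 1) * U x ∂γ) ^ 2 / 2) +
      q ^ 4 * (∫ x, U x ^ 2 ∂γ - (∫ x, U x ∂γ) ^ 2 - (∫ x, (x ^ 2 - 1) * U x ∂γ) ^ 2 / 2) := by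
  have h := excess_nonpos (d := 4) le_rfl ⟨2, rfl⟩ hq hU
  simp [excess, Finset.sum_range_succ, H, h1, h3, Nat.factorial] at h
  unfold pairB at h
  unfold pairFun
  linarith

end Vale.Agent.P157.Exact
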