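import Vale.Agent.P157.Exact.Tails

open MeasureTheory ProbabilityTheory Real Filter
open scoped RealInnerProductSpace ENNReal Topology

namespace Vale.Agent.P157.Exact

variable {N M : ℕ}

lemma rate_nonneg {r : ℝ} (hr : 0 ≤ r) (t : ℝ) : 0 ≤ rate r t := by unfold rate; positivity

lemma rate_abs (r t : ℝ) : rate r |t| = rate r t := by
  unfold rate; rw [sq_abs, show |t| ^ 4 = (|t| ^ 2) ^ 2 by ring, sq_abs]; ring

lemma rate_mono {r a b : ℝ} (hr : 0 ≤ r) (ha : 0 ≤ a) (hab : a ≤ b) : rate r a ≤ rate r b := by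
  unfold rate
  have h2 : a ^ 2 ≤ b ^ 2 := pow_le_pow_left₀ ha hab 2
  have h4 : a ^ 4 ≤ b ^ 4 := pow_le_pow_left₀ ha hab 4
  nlinarith [mul_le_mul_of_nonneg_left h4 hr]

lemma bin_exponent {ρ r η k n : ℝ} (hρ0 : 0 ≤ ρ) (hρ1 : ρ ≤ 1) (hr0 : 0 ≤ r) (hr1 : r ≤ 1)
    (hη : 0 < η) (hη1 : η ≤ 1) (hηρ : 14 * η ≤ 1 - ρ) (hk : 0 ≤ k) (hn : 1 ≤ n) :
    ρ * ((k + 1) ^ 2 / 2 + r * (k + 1) ^ 4 / n) ≤
      (k ^ 2 / 2 + r * k ^ 4 / n) - (1 - ρ) / 4 * k ^ 2 + (1 + 1 / η) ^ 3 * 2 := by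
  set K := 1 + 1 / η
  have hK : 1 ≤ K := by have := one_div_pos.2 hη; linarith
  have h1 : (k + 1) ^ 2 ≤ (1 + η) * k ^ 2 + K := by
    have : 0 ≤ η * (k - 1 / η) ^ 2 := by positivity
    have e : η * (k - 1 / η) ^ 2 = η * k ^ 2 - 2 * k + 1 / η := by field_simp; ring
    rw [e] at this; linarith
  have h2 : (k + 1) ^ 4 ≤ (1 + η) ^ 3 * k ^ 4 + K ^ 3 := by
    have t1 : (k + 1) ^ 4 ≤ ((1 + η) * k ^ 2 + K) ^ 2 := by
      rw [show (k + 1) ^ 4 = ((k + 1) ^ 2) ^ 2 by ring]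
      exact pow_le_pow_left₀ (sq_nonneg _) h1 2
    have : 0 ≤ η * ((1 + η) * k ^ 2 - K / η) ^ 2 := by positivity
    have e : η * ((1 + η) * k ^ 2 - K / η) ^ 2 = η * ((1 + η) * k ^ 2) ^ 2 - 2 * ((1 + η) * k ^ 2) * K + K ^ 2 / η := by
      field_simp; ring
    rw [e] at this
    have e2 : K ^ 3 = K ^ 2 + K ^ 2 / η := by
      simp only [K]; ring
    rw [e2]; linarith
  have hpow : (1 + η) ^ 3 ≤ 1 + 7 * η := by nlinarith [mul_nonneg hη.le (show 0 ≤ 1 - η by linarith)]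
  have hρη : ρ * (1 + 7 * η) ≤ 1 - (1 - ρ) / 2 := by nlinarith
  have hρ3 : ρ * (1 + η) ^ 3 ≤ 1 - (1 - ρ) / 2 := (mul_le_mul_of_nonneg_left hpow hρ0).trans hρη
  have hρ1' : ρ * (1 + η) ≤ 1 - (1 - ρ) / 2 := by nlinarith
  have a1 := mul_le_mul_of_nonneg_left h1 hρ0
  have a2 := mul_le_mul_of_nonneg_left h2 (show 0 ≤ ρ * (r / n) by positivity)
  have a3 := mul_le_mul_of_nonneg_right hρ1' (sq_nonneg k)
  have a4 := mul_le_mul_of_nonneg_right hρ3 (show 0 ≤ r / n * k ^ 4 by positivity)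
  have a5 : ρ * K ≤ K ^ 3 := (mul_le_of_le_one_left (by linarith) hρ1).trans (le_self_pow₀ hK (by norm_num))
  have hrn : r / n ≤ 1 := (div_le_one (by linarith)).2 (hr1.trans hn)
  have a6 : ρ * (r / n) * K ^ 3 ≤ K ^ 3 :=
    mul_le_of_le_one_left (by positivity) (mul_le_one₀ hρ1 (by positivity) hrn)
  have a7 : 0 ≤ (1 - ρ) / 2 * (r / n * k ^ 4) := mul_nonneg (by linarith) (by positivity)
  have a8 : 0 ≤ K ^ 3 := by positivity
  rw [mul_div_right_comm r ((k + 1) ^ 4), mul_div_right_comm r (k ^ 4)]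
  linarith

lemma exists_overlap_moment {r C ρ : ℝ} (hr0 : 0 ≤ r) (hr1 : r ≤ 1) (hC : 0 ≤ C) (hρ0 : 0 ≤ ρ)
    (hρ1 : ρ < 1) :
    ∃ K : ℝ, 1 ≤ K ∧ ∀ (N : ℕ) (μ : Measure (Vec N)), 0 < N → Carried μ → TailBound μ r C →
      Integrable (fun p : Vec N × Vec N => Real.exp (ρ * (N * rate r (⟪p.1, p.2⟫ / N)))) (μ.prod μ) ∧
      ∫ p, Real.exp (ρ * (N * rate r (⟪p.1, p.2⟫ / N))) ∂(μ.prod μ) ≤ K := by
  set η := min 1 ((1 - ρ) / 14)
  have hη : 0 < η := lt_min one_pos (by linarith)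
  have hη1 : η ≤ 1 := min_le_left _ _
  have hηρ : 14 * η ≤ 1 - ρ := by
    have : η ≤ (1 - ρ) / 14 := min_le_right _ _
    linarith
  set c := (1 - ρ) / 4
  set S := fun k : ℕ => C * Real.exp ((1 + 1 / η) ^ 3 * 2) * ((1 + (k:ℝ)) * Real.exp (-(c * k)))
  have hS : Summable S := by
    refine Summable.mul_left _ ?_
    have h0 := Real.summable_pow_mul_exp_neg_nat_mul 0 (show 0 < c by simp only [c]; linarith)
    have h1 := Real.summable_pow_mul_exp_neg_nat_mul 1 (show 0 < c by simp only [c]; linarith)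
    refine (h0.add h1).congr fun k => ?_
    simp; ring_nf
  have hS0 : ∀ k, 0 ≤ S k := fun k => by positivity
  refine ⟨max 1 (∑' k, S k), le_max_left _ _, fun N μ hN hμ htail => ?_⟩
  have := hμ.prob
  have hN' : (0:ℝ) < N := by exact_mod_cast hN
  have hN1 : (1:ℝ) ≤ N := by exact_mod_cast hN
  set W := fun p : Vec N × Vec N => Real.exp (ρ * (N * rate r (⟪p.1, p.2⟫ / N)))
  have hWm : Measurable W := by simp only [W, rate]; fun_prop
  have habs : ∀ x y : Vec N, ‖x‖ = √(N:ℝ) → ‖y‖ = √(N:ℝ) → |⟪x, y⟫ / (N:ℝ)| ≤ 1 := by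
    intro x y hx hy
    rw [abs_div, abs_of_pos hN', div_le_one hN']
    have := abs_real_inner_le_norm x y
    rwa [hx, hy, Real.mul_self_sqrt hN'.le] at this
  have hWI : Integrable W (μ.prod μ) := by
    refine Integrable.of_bound hWm.aestronglyMeasurable (Real.exp (ρ * (N * rate r 1))) ?_
    filter_upwards [norm_eq_prod hμ] with p hp
    rw [Real.norm_eq_abs, abs_exp, ← rate_abs r (⟪p.1, p.2⟫ / N)]
    exact exp_le_exp.2 (mul_le_mul_of_nonneg_left (mul_le_mul_of_nonneg_left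
      (rate_mono hr0 (abs_nonneg _) (habs _ _ hp.1 hp.2)) hN'.le) hρ0)
  refine ⟨hWI, le_trans ?_ (le_max_right _ _)⟩
  rw [integral_prod _ hWI]
  refine (integral_mono_ae hWI.integral_prod_left (integrable_const (∑' k, S k)) ?_).trans (by simp)
  filter_upwards [htail, hμ.norm_eq] with x hx hxn
  set L := ⌊√(N:ℝ)⌋₊
  set d := (√(N:ℝ))⁻¹
  have hsN : 0 < √(N:ℝ) := Real.sqrt_pos.2 hN'
  have hd : 0 < d := inv_pos.2 hsN
  set E := fun k : ℕ => Real.exp (ρ * (N * rate r (((k:ℝ) + 1) * d)))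
  set A := fun k : ℕ => {y : Vec N | (k:ℝ) * d * N ≤ |⟪x, y⟫|}
  have hA : ∀ k, MeasurableSet (A k) := fun k => measurableSet_le measurable_const (by fun_prop)
  set U := fun y => ∑ k ∈ Finset.range (L + 1), (A k).indicator (fun _ => E k) y
  have hUI : Integrable U μ := integrable_finsetSum _ fun k _ => (integrable_const _).indicator (hA k)
  have hpt : ∀ᵐ y ∂μ, W (x, y) ≤ U y := by
    filter_upwards [hμ.norm_eq] with y hy
    set a := |⟪x, y⟫ / (N:ℝ)|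
    have ha := habs x y hxn hy
    set k := ⌊a * √(N:ℝ)⌋₊
    have hk1 : (k:ℝ) ≤ a * √(N:ℝ) := Nat.floor_le (by positivity)
    have hk2 : a * √(N:ℝ) ≤ (k:ℝ) + 1 := (Nat.lt_floor_add_one _).le
    have hkL : k ∈ Finset.range (L + 1) :=
      Finset.mem_range.2 (Nat.lt_succ_of_le (Nat.floor_mono (mul_le_of_le_one_left hsN.le ha)))
    refine le_trans ?_ (Finset.single_le_sum
      (fun j _ => Set.indicator_nonneg (fun _ _ => (exp_pos _).le) y) hkL)
    have hkd : (k:ℝ) * d ≤ a := by rw [← div_eq_mul_inv, div_le_iff₀ hsN]; exact hk1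
    have hmem : y ∈ A k := by
      simp only [A, Set.mem_ofPred_eq]
      rw [← le_div_iff₀ hN']
      refine hkd.trans (le_of_eq ?_)
      simp only [a, abs_div, abs_of_pos hN']
    rw [Set.indicator_of_mem hmem]
    simp only [W, E]
    rw [← rate_abs r (⟪x, y⟫ / N)]
    refine exp_le_exp.2 (mul_le_mul_of_nonneg_left (mul_le_mul_of_nonneg_left
      (rate_mono hr0 (abs_nonneg _) ?_) hN'.le) hρ0)
    rw [← div_eq_mul_inv, le_div_iff₀ hsN]; exact hk2
  refine (integral_mono_of_nonneg (Filter.Eventually.of_forall fun y => (exp_pos _).le) hUI hpt).trans ?_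
  simp only [U]
  rw [integral_finsetSum _ fun k _ => (integrable_const _).indicator (hA k)]
  refine le_trans (Finset.sum_le_sum fun k hk => ?_) (hS.sum_le_tsum _ fun k _ => hS0 k)
  rw [integral_indicator_const _ (hA k), smul_eq_mul]
  have hkL : (k:ℝ) ≤ √(N:ℝ) :=
    le_trans (by exact_mod_cast Nat.lt_succ_iff.1 (Finset.mem_range.1 hk)) (Nat.floor_le hsN.le)
  have hkd1 : (k:ℝ) * d ≤ 1 := by rw [← div_eq_mul_inv, div_le_one hsN]; exact hkL
  have h := mul_le_mul_of_nonneg_right (hx _ (by positivity) hkd1) (show 0 ≤ E k from (exp_pos _).le)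
  refine h.trans ?_
  have hNd : √(N:ℝ) * ((k:ℝ) * d) = k := by simp only [d]; field_simp
  have hrate : ∀ u : ℝ, (N:ℝ) * rate r (u * d) = u ^ 2 / 2 + r * u ^ 4 / N := by
    intro u
    have e : d ^ 2 = 1 / N := by simp only [d]; rw [inv_pow, Real.sq_sqrt hN'.le, one_div]
    rw [rate, show (u * d) ^ 4 = u ^ 4 * (d ^ 2) ^ 2 by ring, mul_pow, e]
    field_simp
  simp only [S, E, hNd, hrate, mul_assoc, ← Real.exp_add]
  refine mul_le_mul_of_nonneg_left ?_ hC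
  rw [mul_left_comm (Real.exp ((1 + 1 / η) ^ 3 * 2)), ← Real.exp_add]
  refine mul_le_mul_of_nonneg_left (exp_le_exp.2 ?_) (by positivity)
  have hb := bin_exponent hρ0 hρ1.le hr0 hr1 hη hη1 hηρ (Nat.cast_nonneg (α := ℝ) k) hN1
  have hk2 : (k:ℝ) ≤ (k:ℝ) ^ 2 := by exact_mod_cast Nat.le_self_pow two_ne_zero k
  have := mul_le_mul_of_nonneg_left hk2 (show 0 ≤ c by simp only [c]; linarith)
  simp only [c] at *
  linarith

/-- The second moment controls the pressure below the threshold. -/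
lemma tendsto_of_pair {μ : ∀ N, Measure (Vec N)} {f : ℝ → ℝ} {B : ℝ}
    (hμ : ∀ᶠ N in atTop, 0 < N ∧ Carried (μ N)) {r C : ℝ} (hr0 : 0 ≤ r) (hr1 : r ≤ 1) (hC : 0 ≤ C)
    (htail : ∀ᶠ N in atTop, TailBound (μ N) r C)
    (hf : Measurable f) (hB : ∀ s, |f s| ≤ B) {a b : ℝ} (ha : 0 ≤ a) (hb : 0 ≤ b)
    (hpair : ∀ q : ℝ, q ^ 2 ≤ 1 →
      pairFun (fun s => Real.exp (f s)) q ≤ Real.exp (ann f) ^ 2 * (1 + a * q ^ 2 + b * q ^ 4))
    {α ρ : ℝ} (hα : 0 ≤ α) (hρ : ρ < 1) (hαa : α * a ≤ ρ / 2) (hαb : α * b ≤ ρ * r) :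
    Tendsto (fun N : ℕ => pressure (μ N) f ⌊α * N⌋₊) atTop (𝓝 (α * ann f)) := by
  have hρ0 : 0 ≤ ρ := by linarith [mul_nonneg hα ha]
  obtain ⟨K, hK1, hK⟩ := exists_overlap_moment (C := C) hr0 hr1 hC hρ0 hρ
  rw [tendsto_pressure_iff μ f hα]
  refine squeeze_zero' (hμ.mono fun N ⟨hN, hc⟩ => div_nonneg (gap_nonneg hN hc hf hB _) (Nat.cast_nonneg _))
    (g := fun N : ℕ => (Real.log 2) / N + 4 * B * √(K * α) / √(N:ℝ)) ?_ ?_
  swap
  · simpa using (tendsto_const_div_atTop_nhds_zero_nat (Real.log 2)).add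
      ((Real.tendsto_sqrt_atTop.comp tendsto_natCast_atTop_atTop).const_div_atTop (4 * B * √(K * α)))
  filter_upwards [hμ, htail] with N ⟨hN, hc⟩ ht
  have hN' : (0:ℝ) < N := by exact_mod_cast hN
  set M := ⌊α * N⌋₊
  have hMle : (M:ℝ) ≤ α * N := Nat.floor_le (by positivity)
  have hB0 : 0 ≤ B := (abs_nonneg _).trans (hB 0)
  obtain ⟨hWI, hWK⟩ := hK N (μ N) hN hc ht
  have := hc.prob
  have h2m : ∫ g, partition (M := M) (μ N) f g ^ 2 ∂patterns N M ≤ K * (Real.exp (ann f) ^ M) ^ 2 := by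
    refine integral_partition_sq_le_of_pair hN hc hf hB hWI hWK ?_
    filter_upwards [norm_eq_prod hc] with p hp
    set q := ⟪p.1, p.2⟫ / (N:ℝ)
    have hq : q ^ 2 ≤ 1 := by
      rw [sq_le_one_iff_abs_le_one, abs_div, abs_of_pos hN', div_le_one hN']
      have := abs_real_inner_le_norm p.1 p.2
      rwa [hp.1, hp.2, Real.mul_self_sqrt hN'.le] at this
    have h0 : 0 ≤ pairFun (fun s => Real.exp (f s)) q := integral_nonneg fun h => by positivity
    have h1 : pairFun (fun s => Real.exp (f s)) q ≤ Real.exp (ann f) ^ 2 * Real.exp (a * q ^ 2 + b * q ^ 4) :=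
      (hpair q hq).trans (mul_le_mul_of_nonneg_left
        (by linarith [Real.add_one_le_exp (a * q ^ 2 + b * q ^ 4)]) (sq_nonneg _))
    refine (pow_le_pow_left₀ h0 h1 M).trans ?_
    rw [mul_pow, ← pow_mul, mul_comm 2 M, pow_mul, ← Real.exp_nat_mul (a * q ^ 2 + b * q ^ 4) M]
    refine mul_le_mul_of_nonneg_left (exp_le_exp.2 ?_) (by positivity)
    have t1 : (M:ℝ) * (a * q ^ 2 + b * q ^ 4) ≤ α * N * (a * q ^ 2 + b * q ^ 4) :=
      mul_le_mul_of_nonneg_right hMle (by positivity)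
    have t2 := mul_le_mul_of_nonneg_right hαa (show 0 ≤ (N:ℝ) * q ^ 2 by positivity)
    have t3 := mul_le_mul_of_nonneg_right hαb (show 0 ≤ (N:ℝ) * q ^ 4 by positivity)
    unfold rate; linarith
  have hg := gap_le_of_second_moment hN hc hK1 hf hB h2m
  have hs : √(K * (M:ℝ)) ≤ √(K * α) * √(N:ℝ) := by
    rw [← Real.sqrt_mul (mul_nonneg (by linarith) hα)]
    refine Real.sqrt_le_sqrt ?_
    rw [mul_assoc]; exact mul_le_mul_of_nonneg_left hMle (by linarith)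
  calc gap (μ N) f M / N ≤ (Real.log 2 + 4 * B * (√(K * α) * √(N:ℝ))) / N :=
        div_le_div_of_nonneg_right
          (hg.trans (add_le_add le_rfl (mul_le_mul_of_nonneg_left hs (by positivity)))) hN'.le
    _ = _ := by
        have hs : √(N:ℝ) ≠ 0 := by positivity
        field_simp
        linear_combination (4 * B * √(K * α)) * Real.mul_self_sqrt hN'.le

end Vale.Agent.P157.Exact
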