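import Vale.Agent.P157.Exact.Chi

open MeasureTheory ProbabilityTheory Real Filter
open scoped RealInnerProductSpace ENNReal Topology

namespace Vale.Agent.P157.Exact

variable {m n N M : ℕ}

/-- one-sided bound valid for all vectors -/
def allSet (σ φ z : ℝ) (v : Vec m) : Set (Fin n → Vec m) :=
  {c | ∀ (s : ℝ) (w : Vec n), σ * (‖s • v + comb c w‖ ^ 2 - z * ‖w‖ ^ 2 - φ * s ^ 2 * ‖v‖ ^ 2) ≤ 0}

@[fun_prop]
lemma continuous_comb (w : Vec n) : Continuous fun c : Fin n → Vec m => comb c w := by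
  unfold comb; fun_prop

lemma measurable_allSet (σ φ z : ℝ) (v : Vec m) : MeasurableSet (allSet (n := n) σ φ z v) := by
  refine IsClosed.measurableSet ?_
  simp only [allSet, Set.ofPred_forall]
  exact isClosed_iInter fun s => isClosed_iInter fun w => isClosed_le (by fun_prop) continuous_const

lemma all_scalar {σ s b r q : ℝ} (hs : 0 < s) (hσ : σ ^ 2 = 1) :
    σ * ((r + q * b) ^ 2 - (1 + σ / s) * r ^ 2) - (σ + s) * q ^ 2 * b ^ 2 ≤ 0 := by
  have : σ * ((r + q * b) ^ 2 - (1 + σ / s) * r ^ 2) - (σ + s) * q ^ 2 * b ^ 2 =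
      -((r - σ * (s * q * b)) ^ 2) / s + (1 - σ ^ 2) * (r ^ 2 / s) + (σ ^ 2 - 1) * (s * q ^ 2 * b ^ 2) := by
    field_simp; ring
  rw [this, hσ]
  simp only [sub_self, zero_mul, add_zero]
  exact div_nonpos_of_nonpos_of_nonneg (neg_nonpos.2 (sq_nonneg _)) hs.le

lemma all_step {σ φ z s : ℝ} (hs : 0 < s) (hσ : σ ^ 2 = 1) (hφ : φ = 1 + σ / s) (v : Vec (m + 1))
    (h : Vec (n + 1)) (x : Vec m) (y : Fin n → Vec m)
    (hc : (σ + s) * ‖h‖ ^ 2 + σ * φ * ‖x‖ ^ 2 ≤ σ * z) (hy : y ∈ allSet σ φ z x) :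
    assemble v h (Fin.cons x y) ∈ allSet σ φ z v := by
  intro t w
  set ω := (dirBasis h).repr w with hω
  have hn : ‖w‖ ^ 2 = ω 0 ^ 2 + ‖tailV ω‖ ^ 2 := by rw [← norm_sq_split, hω, LinearIsometryEquiv.norm_map]
  have h1 := hy (ω 0) (tailV ω)
  rw [split_norm, ← hω, hn]
  have h2 := all_scalar (r := t * ‖v‖) (q := ‖h‖) (b := ω 0) hs hσ
  rw [← hφ] at h2
  have h3 := mul_le_mul_of_nonneg_right hc (sq_nonneg (ω 0))
  linarith

lemma null_all {σ φ z s : ℝ} (hs : 0 < s) (hσ : σ ^ 2 = 1) (hφ : φ = 1 + σ / s) (hz : 0 ≤ z)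
    (hbase : σ = 1 ∨ N ≤ M) {q' : ℝ≥0∞}
    (A : ∀ n, Set (Vec n)) (hA : ∀ n, MeasurableSet (A n)) (B : ∀ m, Set (Vec m))
    (hB : ∀ m, MeasurableSet (B m))
    (hAB : ∀ n m, n + 1 ≤ N → m + 1 ≤ M → M + (n + 1) = (m + 1) + N → ∀ h ∈ A (n + 1), ∀ x ∈ B m,
      (σ + s) * ‖h‖ ^ 2 + σ * φ * ‖x‖ ^ 2 ≤ σ * z)
    (hPA : ∀ n ≤ N, stdGaussian (Vec n) (A n)ᶜ ≤ q')
    (hPB : ∀ m ≤ M, stdGaussian (Vec m) (B m)ᶜ ≤ q') :
    ∀ n m, n ≤ N → m ≤ M → M + n = m + N → ∀ v : Vec m,
      patterns m n (allSet σ φ z v)ᶜ ≤ (2 * n : ℕ) * q' := by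
  have hzero : ∀ v : Vec 0, ∀ n, n + M = N → patterns 0 n (allSet σ φ z v)ᶜ = 0 := by
    intro v n hn
    have : (allSet (n := n) σ φ z v) = Set.univ := by
      refine Set.eq_univ_of_forall fun c t w => ?_
      have e1 : t • v + comb c w = 0 := Subsingleton.elim _ _
      have e2 : v = 0 := Subsingleton.elim _ _
      rw [e1, e2]
      rcases hbase with rfl | hle
      · simp; positivity
      · obtain rfl : n = 0 := by omega
        simp [Subsingleton.elim w 0]
    simp [this]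
  intro n
  induction n with
  | zero =>
    intro m _ _ _ v
    have : (allSet (n := 0) σ φ z v) = Set.univ := by
      refine Set.eq_univ_of_forall fun c t w => ?_
      have e : comb c w = 0 := by simp [comb]
      rw [e, Subsingleton.elim w 0, add_zero, norm_smul, mul_pow, Real.norm_eq_abs, sq_abs, norm_zero, hφ]
      have : σ * (t ^ 2 * ‖v‖ ^ 2 - z * 0 ^ 2 - (1 + σ / s) * t ^ 2 * ‖v‖ ^ 2) =
          -(σ ^ 2 * (t ^ 2 * ‖v‖ ^ 2) / s) := by field_simp; ring
      rw [this, hσ, neg_nonpos]; positivity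
    simp [this]
  | succ n ih =>
    intro m hn hm hmn v
    rcases m with _ | m
    · rw [hzero v (n+1) (by omega)]; exact bot_le
    refine (step_prob v (measurable_allSet σ φ z v) (fun x => allSet σ φ z x) (hA _) (hB _)
      (fun h hh x hx y hy => all_step hs hσ hφ v h x y (hAB n m hn hm hmn h hh x hx) hy)
      (fun x => ih m (by omega) (by omega) (by omega) x)).trans ?_
    refine (add_le_add (hPA _ hn) (add_le_add (hPB _ (by omega)) le_rfl)).trans_eq ?_
    push_cast; ring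

/-- The statistic is small under the null model. -/
def statSet (σ z : ℝ) : Set (Fin M → Vec N) :=
  {g | ∀ w : Vec N, σ * ((∑ a, ⟪g a, w⟫ ^ 2) - z * ‖w‖ ^ 2) ≤ 0}

lemma measurable_statSet (σ z : ℝ) : MeasurableSet (statSet (N := N) (M := M) σ z) := by
  refine IsClosed.measurableSet ?_
  simp only [statSet, Set.ofPred_forall]
  exact isClosed_iInter fun w => isClosed_le (by fun_prop) continuous_const

/-- budget for the upper edge -/
lemma budget_pos {s η ε φ α H X n m N : ℝ} (hs : 0 ≤ 1 + s) (hsα : s ^ 2 = α) (hφ : 0 ≤ φ)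
    (hφα : φ * α = α + s) (hN : 0 ≤ N) (hh : H - (n + 1) ≤ η * N) (hx : X - m ≤ η * N)
    (hn : n + 1 ≤ N) (hm : m ≤ α * N) (hη : η * (1 + s + φ) ≤ ε) :
    (1 + s) * H + φ * X ≤ (1 + s) ^ 2 * N + ε * N := by
  have h1 := mul_le_mul_of_nonneg_left hh hs
  have h2 := mul_le_mul_of_nonneg_left hx hφ
  have t1 := mul_le_mul_of_nonneg_left hn hs
  have t2 := mul_le_mul_of_nonneg_left hm hφ
  have h4 := mul_le_mul_of_nonneg_right hη hN
  have e : (1 + s) ^ 2 = 1 + 2 * s + α := by rw [← hsα]; ring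
  rw [← mul_assoc φ α, hφα] at t2
  rw [e]; linarith

/-- budget for the lower edge -/
lemma budget_neg {s η ε φ α H X n m M N : ℝ} (hs : 0 ≤ s - 1) (hsα : s ^ 2 = α) (hφ : 0 ≤ φ)
    (hφs : φ ≤ s - 1)
    (hφα : φ * α = α - s) (hN : 0 ≤ N) (hh : H - (n + 1) ≤ η * N) (hx : -(X - m) ≤ η * N)
    (hn : n + 1 ≤ N) (hm : m = M + n - N) (hM : α * N ≤ M + 1) (hφN : 4 * φ ≤ ε * N)
    (hη : η * (s - 1 + φ) ≤ ε / 2) :
    (s - 1) * H - φ * X ≤ -((s - 1) ^ 2 * N) + ε * N := by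
  have h1 := mul_le_mul_of_nonneg_left hh hs
  have h2 := mul_le_mul_of_nonneg_left hx hφ
  have t1 := mul_le_mul_of_nonneg_left hn (show 0 ≤ s - 1 - φ by linarith)
  have t2 := mul_le_mul_of_nonneg_left hM hφ
  have h4 := mul_le_mul_of_nonneg_right hη hN
  have e : (s - 1) ^ 2 = α - 2 * s + 1 := by rw [← hsα]; ring
  rw [← mul_assoc φ α, hφα] at t2
  rw [hm] at h2
  rw [e]; linarith

lemma stat_null {σ s ε α z0 : ℝ} (hα : 0 < α) (hs : s = √α) (hσ : σ = 1 ∨ σ = -1 ∧ 1 < α)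
    (hε : 0 < ε) (hz0 : z0 = (1 + σ * s) ^ 2 + σ * ε) (hz : 0 ≤ z0) :
    ∃ p : ℕ → ℝ, Tendsto p atTop (𝓝 0) ∧ ∀ᶠ N : ℕ in atTop,
      (patterns N ⌊α * N⌋₊).real (statSet σ (z0 * N))ᶜ ≤ p N := by
  have hs0 : 0 < s := hs ▸ Real.sqrt_pos.2 hα
  have hsα : s ^ 2 = α := hs ▸ Real.sq_sqrt hα.le
  have hσ2 : σ ^ 2 = 1 := by rcases hσ with rfl | ⟨rfl, _⟩ <;> norm_num
  have hσs : 0 ≤ σ + s := by
    rcases hσ with rfl | ⟨rfl, h1⟩
    · linarith
    · nlinarith
  set φ := 1 + σ / s with hφ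
  have hφ0 : 0 ≤ φ := by
    have : φ = (s + σ) / s := by rw [hφ]; field_simp
    rw [this]; exact div_nonneg (by linarith) hs0.le
  set η := ε / (2 * (σ + s + φ + 1)) with hη
  have hη0 : 0 < η := by positivity
  have hηε : η * (σ + s + φ + 1) = ε / 2 := by rw [hη]; field_simp
  obtain ⟨c, hc, hconc⟩ := conc_norm hη0 (show 0 ≤ α + 1 by linarith)
  refine ⟨fun N => (2 * N : ℕ) * Real.exp (-(c * N)), ?_, ?_⟩
  · have h := (tendsto_rpow_mul_exp_neg_mul_atTop_nhds_zero 1 c hc).comp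
      (tendsto_natCast_atTop_atTop (R := ℝ))
    have := h.const_mul 2
    simp only [Function.comp_def, Real.rpow_one, mul_zero] at this
    refine this.congr fun N => ?_
    push_cast; ring_nf
  filter_upwards [eventually_gt_atTop 0,
    (tendsto_natCast_atTop_atTop (R := ℝ)).eventually (eventually_ge_atTop (4 * φ / ε)),
    (tendsto_natCast_atTop_atTop (R := ℝ)).eventually (eventually_ge_atTop (1 / |α - 1| + 1))]
    with N hN hNφ hN1
  set M := ⌊α * N⌋₊
  have hN' : (0:ℝ) < N := by exact_mod_cast hN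
  have hMle : (M:ℝ) ≤ α * N := Nat.floor_le (by positivity)
  have hMge : α * N ≤ M + 1 := (Nat.lt_floor_add_one _).le
  have hφN : 4 * φ ≤ ε * N := by rw [div_le_iff₀ hε] at hNφ; linarith
  have hbase : σ = 1 ∨ N ≤ M := by
    rcases hσ with h | ⟨_, h1⟩
    · exact Or.inl h
    · right
      rw [abs_of_pos (by linarith)] at hN1
      have : 1 ≤ (α - 1) * N := by
        have := mul_le_mul_of_nonneg_left hN1 (show 0 ≤ α - 1 by linarith)
        rw [mul_add, mul_one_div_cancel (by linarith)] at this; linarith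
      refine Nat.le_floor ?_; linarith
  set q' := ENNReal.ofReal (Real.exp (-(c * N))) with hq'
  have main := null_all (N := N) (M := M) (z := z0 * N) hs0 hσ2 hφ (by positivity) hbase
    (q' := q') (fun n => {h : Vec n | η * N < 1 * (‖h‖ ^ 2 - n)}ᶜ)
    (fun n => (measurableSet_lt measurable_const (by fun_prop)).compl)
    (fun m => {x : Vec m | η * N < σ * (‖x‖ ^ 2 - m)}ᶜ)
    (fun m => (measurableSet_lt measurable_const (by fun_prop)).compl) ?_ ?_ ?_ N M le_rfl le_rfl rfl 0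
  · rw [measureReal_def]
    refine ENNReal.toReal_le_of_le_ofReal (by positivity) ?_
    rw [ENNReal.ofReal_mul (by positivity), ENNReal.ofReal_natCast, ← hq']
    refine le_trans ?_ main
    have hb := flip_preserving (n := N) (EuclideanSpace.basisFun (Fin M) ℝ)
    rw [← hb.measure_preimage (measurable_allSet σ φ _ 0).compl.nullMeasurableSet]
    refine measure_mono fun g hg hall => hg fun w => ?_
    have h := hall 0 w
    rw [smul_zero, norm_sq_flip] at h
    simpa [PiLp.inner_apply] using h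
  · intro n m hn hm hmn h hh x hx
    simp only [Set.mem_compl_iff, Set.mem_ofPred_eq, not_lt, one_mul] at hh hx
    have hnN : (n:ℝ) + 1 ≤ N := by exact_mod_cast hn
    have hmM : (m:ℝ) + 1 ≤ M := by exact_mod_cast hm
    have hmn' : (M:ℝ) + (n + 1) = m + 1 + N := by exact_mod_cast hmn
    push_cast at hh
    rcases hσ with rfl | ⟨rfl, h1α⟩
    · have e : φ * α = α + s := by rw [hφ, ← hsα]; field_simp
      have := budget_pos (ε := ε) (X := ‖x‖ ^ 2) (by linarith) hsα hφ0 e hN'.le hh (by linarith) hnN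
        (show (m:ℝ) ≤ α * N by linarith) (by linarith)
      rw [hz0]; linarith
    · have e : φ * α = α - s := by rw [hφ, ← hsα]; field_simp; ring
      have e2 : φ ≤ s - 1 := by
        have : φ * s = s - 1 := by rw [hφ]; field_simp; ring
        nlinarith
      have := budget_neg (ε := ε) (M := (M:ℝ)) (X := ‖x‖ ^ 2) (m := (m:ℝ)) (by linarith) hsα hφ0 e2 e hN'.le hh (by linarith) hnN
        (by linarith) hMge hφN (by linarith)
      rw [hz0]; linarith
  · intro n hn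
    rw [compl_compl]
    refine hconc 1 abs_one N n ?_
    have : (n:ℝ) ≤ N := by exact_mod_cast hn
    nlinarith
  · intro m hm
    rw [compl_compl]
    refine hconc σ (by rcases hσ with rfl | ⟨rfl, _⟩ <;> norm_num) N m ?_
    have : (m:ℝ) ≤ M := by exact_mod_cast hm
    nlinarith

end Vale.Agent.P157.Exact
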