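import Vale.Agent.P157.Exact.Null

open MeasureTheory ProbabilityTheory Real Filter
open scoped RealInnerProductSpace ENNReal Topology

namespace Vale.Agent.P157.Exact

variable {m n N M : ℕ}

/-- some vector beats the value `φ` -/
def exSet (σ φ z : ℝ) (v : Vec m) : Set (Fin n → Vec m) :=
  {c | v = 0 ∨ ∃ w : Vec n, 0 < σ * (‖v + comb c w‖ ^ 2 - z * ‖w‖ ^ 2 - φ * ‖v‖ ^ 2)}

lemma measurable_exSet (σ φ z : ℝ) (v : Vec m) : MeasurableSet (exSet (n := n) σ φ z v) := by
  by_cases hv : v = 0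
  · simp [exSet, hv]
  · have : exSet (n := n) σ φ z v =
        ⋃ w : Vec n, {c | 0 < σ * (‖v + comb c w‖ ^ 2 - z * ‖w‖ ^ 2 - φ * ‖v‖ ^ 2)} := by
      ext c; simp [exSet, hv]
    rw [this]
    exact (isOpen_iUnion fun w => isOpen_lt continuous_const (by fun_prop)).measurableSet

lemma norm_coords (e : OrthonormalBasis (Fin (n + 1)) ℝ (Vec (n + 1))) (b : ℝ) (w : Vec n) :
    ‖e.repr.symm (consV b w)‖ ^ 2 = b ^ 2 + ‖w‖ ^ 2 := by
  rw [LinearIsometryEquiv.norm_map, norm_sq_split, consV_zero, tailV_consV]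

lemma comb_smul (c : Fin n → Vec m) (b : ℝ) (w : Vec n) : comb c (b • w) = b • comb c w := by
  simp [comb, Finset.smul_sum, smul_smul]

lemma ex_child {σ φ z : ℝ} {x : Vec m} {y : Fin n → Vec m} (hy : y ∈ exSet σ φ z x) :
    ∃ w : Vec n, 0 ≤ σ * (‖x + comb y w‖ ^ 2 - z * ‖w‖ ^ 2 - φ * ‖x‖ ^ 2) := by
  rcases hy with rfl | ⟨w, hw⟩
  · exact ⟨0, by simp [comb]⟩
  · exact ⟨w, hw.le⟩

/-- One step with step size `β` and budget `K`. -/
lemma ex_step {σ φ φ' z β K : ℝ} (v : Vec (m + 1)) (h : Vec (n + 1)) (x : Vec m)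
    (y : Fin n → Vec m) (hh : 0 < ‖h‖)
    (hc : σ * (z - φ' * ‖x‖ ^ 2) ≤ K * ‖h‖ ^ 2)
    (hnum : 0 < σ * ((1 + β) ^ 2 - φ) - β ^ 2 * K)
    (hy : y ∈ exSet σ φ' z x) :
    assemble v h (Fin.cons x y) ∈ exSet σ φ z v := by
  by_cases hv : v = 0
  · exact Or.inl hv
  obtain ⟨w', hw'⟩ := ex_child hy
  set b := β * ‖v‖ / ‖h‖ with hb
  refine Or.inr ⟨(dirBasis h).repr.symm (consV b (b • w')), ?_⟩
  have h0 := split_norm v h x y 1 ((dirBasis h).repr.symm (consV b (b • w')))
  rw [one_smul, one_mul, LinearIsometryEquiv.apply_symm_apply, consV_zero, tailV_consV, comb_smul,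
    ← smul_add, norm_smul, mul_pow, Real.norm_eq_abs, sq_abs] at h0
  rw [h0, norm_coords, norm_smul, mul_pow, Real.norm_eq_abs, sq_abs]
  have hbh : ‖h‖ * b = β * ‖v‖ := by rw [hb]; field_simp
  have hr : 0 < ‖v‖ ^ 2 := by have := norm_pos_iff.2 hv; positivity
  have t1 := mul_nonneg (sq_nonneg b) hw'
  have t2 := mul_le_mul_of_nonneg_left hc (sq_nonneg b)
  have e : b ^ 2 * (K * ‖h‖ ^ 2) = K * β ^ 2 * ‖v‖ ^ 2 := by
    calc b ^ 2 * (K * ‖h‖ ^ 2) = K * (‖h‖ * b) ^ 2 := by ring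
      _ = _ := by rw [hbh]; ring
  rw [hbh]
  have t3 := mul_pos hr hnum
  linarith

/-- Value `1 + σ a / √α` is reached with exponential probability. -/
def Reach (σ s z0 α a : ℝ) : Prop :=
  ∃ ε c : ℝ, 0 < ε ∧ 0 < c ∧ ∀ᶠ N : ℕ in atTop, ∀ m n : ℕ, |(m:ℝ) - α * N| ≤ ε * N →
    |(n:ℝ) - N| ≤ ε * N → ∀ z : ℝ, |z - z0 * N| ≤ ε * N → ∀ v : Vec m,
      patterns m n (exSet σ (1 + σ * a / s) z v)ᶜ ≤ ENNReal.ofReal (Real.exp (-(c * N)))

lemma reach_base {σ s z0 α a : ℝ} (hσ : σ ^ 2 = 1) (hs : 0 < s) (ha : a < 0) : Reach σ s z0 α a := by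
  refine ⟨1, 1, one_pos, one_pos, Filter.Eventually.of_forall fun N m n _ _ z _ v => ?_⟩
  have : exSet (n := n) σ (1 + σ * a / s) z v = Set.univ := by
    refine Set.eq_univ_of_forall fun c => ?_
    by_cases hv : v = 0
    · exact Or.inl hv
    refine Or.inr ⟨0, ?_⟩
    have e : comb c (0 : Vec n) = 0 := by simp [comb]
    have hr : 0 < ‖v‖ ^ 2 := by have := norm_pos_iff.2 hv; positivity
    rw [e, add_zero, norm_zero]
    have : σ * (‖v‖ ^ 2 - z * 0 ^ 2 - (1 + σ * a / s) * ‖v‖ ^ 2) = σ ^ 2 * ((-a) / s * ‖v‖ ^ 2) := by ring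
    rw [this, hσ, one_mul]
    exact mul_pos (div_pos (by linarith) hs) hr
  simp [this]

lemma exp_three {c : ℝ} (hc : 0 < c) : ∀ᶠ N : ℕ in atTop,
    3 * Real.exp (-(c * N)) ≤ Real.exp (-(c / 2 * N)) := by
  have h := (Real.tendsto_exp_atTop.comp
    ((tendsto_natCast_atTop_atTop (R := ℝ)).const_mul_atTop (show 0 < c / 2 by positivity))).eventually
    (eventually_ge_atTop (3:ℝ))
  filter_upwards [h] with N hN
  simp only [Function.comp_apply] at hN
  calc _ ≤ Real.exp (c / 2 * N) * Real.exp (-(c * N)) := mul_le_mul_of_nonneg_right hN (exp_pos _).le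
    _ = _ := by rw [← Real.exp_add]; congr 1; ring

lemma reach_step {σ s z0 α a a' : ℝ} (hσ : σ = 1 ∨ σ = -1 ∧ 1 < s) (hs : 0 < s) (hsα : s ^ 2 = α)
    (hz0 : z0 = (1 + σ * s) ^ 2) (hR : Reach σ s z0 α a) (ha1 : a < 1) (ha' : a' < 1 / (2 - a))
    (hφ' : 0 ≤ 1 + σ * a / s) : Reach σ s z0 α a' := by
  obtain ⟨ε₁, c₁, hε₁, hc₁, hev⟩ := hR
  set φ' := 1 + σ * a / s with hφ'def
  set q := 1 / (2 - a) with hq
  have h2a : 0 < 2 - a := by linarith
  have hq0 : 0 < q := by positivity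
  have hqa : q * (2 - a) = 1 := by rw [hq]; field_simp
  set e := (q - a') * s / (2 * q ^ 2) with he
  have he0 : 0 < e := div_pos (mul_pos (by linarith) hs) (by positivity)
  set K := σ + s * (2 - a) + e with hK
  have hσ2 : σ ^ 2 = 1 := by rcases hσ with rfl | ⟨rfl, _⟩ <;> norm_num
  have hσabs : |σ| = 1 := by rcases hσ with rfl | ⟨rfl, _⟩ <;> norm_num
  have hK0 : 0 < K := by
    rcases hσ with rfl | ⟨rfl, h1⟩
    · have := mul_pos hs h2a; linarith
    · have : s * 1 < s * (2 - a) := mul_lt_mul_of_pos_left (by linarith) hs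
      linarith
  have hα : 0 < α := hsα ▸ by positivity
  set ε := min (min (ε₁ / 2) (min (α / 2) (1 / 4))) (e / (2 + 4 * φ' + 4 * K)) with hε
  have hε0 : 0 < ε := lt_min (lt_min (by positivity) (lt_min (by positivity) (by norm_num))) (by positivity)
  have hεe : ε * (2 + 4 * φ' + 4 * K) ≤ e := (le_div_iff₀ (by positivity)).1 (min_le_right _ _)
  have hεa : ε ≤ α / 2 := (min_le_left _ _).trans ((min_le_right _ _).trans (min_le_left _ _))
  have hε4 : ε ≤ 1 / 4 := (min_le_left _ _).trans ((min_le_right _ _).trans (min_le_right _ _))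
  have hεε₁ : 2 * ε ≤ ε₁ := by
    have : ε ≤ ε₁ / 2 := (min_le_left _ _).trans (min_le_left _ _)
    linarith
  obtain ⟨c₀, hc₀, hconc⟩ := conc_norm hε0 (show 0 ≤ α + 2 by linarith)
  refine ⟨ε, min c₀ c₁ / 2, hε0, by positivity, ?_⟩
  filter_upwards [hev, exp_three (lt_min hc₀ hc₁),
    (tendsto_natCast_atTop_atTop (R := ℝ)).eventually (eventually_ge_atTop (1 / ε)),
    eventually_gt_atTop 0] with N hN h3 hNε hN0
  intro m n hm hn z hz v
  have hN' : (0:ℝ) < N := by exact_mod_cast hN0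
  have h1εN : 1 ≤ ε * N := by rw [div_le_iff₀ hε0] at hNε; linarith
  have hm' := abs_le.1 hm
  have hn' := abs_le.1 hn
  have hεN := mul_le_mul_of_nonneg_right hεa hN'.le
  have hεN4 := mul_le_mul_of_nonneg_right hε4 hN'.le
  have hε2N := mul_le_mul_of_nonneg_right hεε₁ hN'.le
  have hαN : 0 < α * N := by positivity
  obtain ⟨m, rfl⟩ : ∃ k, m = k + 1 := by
    refine Nat.exists_eq_succ_of_ne_zero fun h => ?_
    rw [h, Nat.cast_zero] at hm'; linarith
  obtain ⟨n, rfl⟩ : ∃ k, n = k + 1 := by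
    refine Nat.exists_eq_succ_of_ne_zero fun h => ?_
    rw [h, Nat.cast_zero] at hn'; linarith
  push_cast at hm' hn'
  set A := {h : Vec (n + 1) | ε * N < -1 * (‖h‖ ^ 2 - (n + 1 : ℕ))}ᶜ with hA
  set B := {x : Vec m | ε * N < -σ * (‖x‖ ^ 2 - m)}ᶜ with hB
  refine (step_prob v (measurable_exSet σ _ z v) (fun x => exSet σ φ' z x)
    (A := A) (measurableSet_lt measurable_const (by fun_prop)).compl
    (B := B) (measurableSet_lt measurable_const (by fun_prop)).compl ?_
    (fun x => hN m n (abs_le.2 ⟨by linarith, by linarith⟩) (abs_le.2 ⟨by linarith, by linarith⟩) z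
      (abs_le.2 ⟨by linarith [(abs_le.1 hz).1], by linarith [(abs_le.1 hz).2]⟩) x)).trans ?_
  · intro h hh x hx y hy
    simp only [hA, hB, Set.mem_compl_iff, Set.mem_ofPred_eq, not_lt] at hh hx
    push_cast at hh
    refine ex_step (β := σ * q / s) (K := K) v h x y ?_ ?_ ?_ hy
    · have : 0 < ‖h‖ ^ 2 := by linarith
      exact lt_of_le_of_ne (norm_nonneg _) fun h0 => by rw [← h0] at this; simp at this
    · have t1 := mul_le_mul_of_nonneg_left hx hφ'
      have t2 : K * ((1 - 2 * ε) * N) ≤ K * ‖h‖ ^ 2 := mul_le_mul_of_nonneg_left (by linarith) hK0.le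
      have t3 : φ' * (σ * α * N - 2 * ε * N) ≤ φ' * (σ * m) := by
        refine mul_le_mul_of_nonneg_left ?_ hφ'
        rcases hσ with rfl | ⟨rfl, _⟩ <;> linarith
      have t4 : σ * z ≤ σ * z0 * N + ε * N := by
        rcases hσ with rfl | ⟨rfl, _⟩ <;> linarith [(abs_le.1 hz).1, (abs_le.1 hz).2]
      have key : σ * z0 - φ' * (σ * α) = K - e := by
        rw [hz0, hφ'def, hK, ← hsα]; field_simp
        rcases hσ with rfl | ⟨rfl, _⟩ <;> ring
      have t5 := congrArg (· * (N:ℝ)) key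
      have t6 := mul_le_mul_of_nonneg_right hεe hN'.le
      have t7 : 0 ≤ (1 + φ' + 2 * K) * (ε * N) := by positivity
      linarith
    · have hnum : σ * ((1 + σ * q / s) ^ 2 - (1 + σ * a' / s)) - (σ * q / s) ^ 2 * K =
          (q - a' - q ^ 2 * e / s) / s := by
        rw [hK]; field_simp
        rcases hσ with rfl | ⟨rfl, _⟩ <;> linear_combination (-(q * s)) * hqa
      rw [hnum]
      have : q ^ 2 * e / s = (q - a') / 2 := by rw [he]; field_simp
      rw [this]
      exact div_pos (by linarith) hs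
  · have hA' : stdGaussian (Vec (n+1)) Aᶜ ≤ ENNReal.ofReal (Real.exp (-(c₀ * N))) := by
      rw [hA, compl_compl]
      refine hconc (-1) (by norm_num) N (n+1) ?_
      push_cast; linarith
    have hB' : stdGaussian (Vec m) Bᶜ ≤ ENNReal.ofReal (Real.exp (-(c₀ * N))) := by
      rw [hB, compl_compl]
      exact hconc (-σ) (by rw [abs_neg, hσabs]) N m (by linarith)
    refine (add_le_add hA' (add_le_add hB' le_rfl)).trans ?_
    rw [← ENNReal.ofReal_add (by positivity) (by positivity), ← ENNReal.ofReal_add (by positivity) (by positivity)]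
    refine ENNReal.ofReal_le_ofReal (le_trans ?_ h3)
    have e1 : Real.exp (-(c₀ * N)) ≤ Real.exp (-(min c₀ c₁ * N)) :=
      exp_le_exp.2 (neg_le_neg (mul_le_mul_of_nonneg_right (min_le_left _ _) hN'.le))
    have e2 : Real.exp (-(c₁ * N)) ≤ Real.exp (-(min c₀ c₁ * N)) :=
      exp_le_exp.2 (neg_le_neg (mul_le_mul_of_nonneg_right (min_le_right _ _) hN'.le))
    linarith

/-- every value below the fixed point is reached -/
lemma reach_all {σ s z0 α : ℝ} (hσ : σ = 1 ∨ σ = -1 ∧ 1 < s) (hs : 0 < s) (hsα : s ^ 2 = α)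
    (hz0 : z0 = (1 + σ * s) ^ 2) {a : ℝ} (ha : a < 1) :
    ∃ a', a ≤ a' ∧ a' < 1 ∧ Reach σ s z0 α a' := by
  have hσ2 : σ ^ 2 = 1 := by rcases hσ with rfl | ⟨rfl, _⟩ <;> norm_num
  set η := min ((1 - a) / 2) (min (s / 2) (1/2)) with hη
  have hη0 : 0 < η := lt_min (by linarith) (lt_min (by linarith) (by norm_num))
  have hηs : η < s := by
    linarith [(min_le_right ((1 - a) / 2) (min (s / 2) (1/2))).trans (min_le_left _ _)]
  have key : ∀ j : ℕ, Reach σ s z0 α ((j:ℝ) / (j + 1) - η) := by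
    intro j
    induction j with
    | zero => exact reach_base hσ2 hs (by simp; linarith)
    | succ j ih =>
      have hj : (0:ℝ) ≤ j := Nat.cast_nonneg j
      set u := (j:ℝ) / (j + 1) with hu
      have hu0 : 0 ≤ u := by positivity
      have hu1 : u < 1 := by rw [hu, div_lt_one (by positivity)]; linarith
      have hv : ((j + 1 : ℕ):ℝ) / ((j + 1 : ℕ) + 1) = 1 / (2 - u) := by
        have h2u : 2 - u = ((j:ℝ) + 2) / (j + 1) := by rw [hu]; field_simp; ring
        rw [h2u, one_div_div]; push_cast; ring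
      refine reach_step hσ hs hsα hz0 ih (by linarith) ?_ ?_
      · rw [hv, lt_div_iff₀ (by linarith)]
        have h2 : 1 / (2 - u) < 1 := by rw [div_lt_one (by linarith)]; linarith
        have h4 : 1 / (2 - u) * (2 - u) = 1 := one_div_mul_cancel (by linarith)
        nlinarith [mul_pos hη0 (show 0 < (2 - u) - 1 / (2 - u) by linarith), mul_pos hη0 hη0]
      · have : -1 ≤ σ * (u - η) / s := by
          rw [le_div_iff₀ hs]
          rcases hσ with rfl | ⟨rfl, h1⟩ <;> linarith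
        linarith
  obtain ⟨j, hj⟩ := exists_nat_gt (2 / (1 - a))
  refine ⟨(j:ℝ) / (j + 1) - η, ?_, ?_, key j⟩
  · have h1 : η ≤ (1 - a) / 2 := min_le_left _ _
    have h2 : 1 - (1 - a) / 2 ≤ (j:ℝ) / (j + 1) := by
      rw [div_lt_iff₀ (by linarith)] at hj
      rw [le_div_iff₀ (by positivity)]
      linarith
    linarith
  · have : (j:ℝ) / (j + 1) ≤ 1 := by rw [div_le_one (by positivity)]; linarith
    linarith

/-- The planted law gives exponentially small mass to the null event. -/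
lemma planted_small {f : ℝ → ℝ} {B : ℝ} (hf : Measurable f) (hB : ∀ t, |f t| ≤ B) {σ s α : ℝ}
    (hσ : σ = 1 ∨ σ = -1 ∧ 1 < s) (hs : 0 < s) (hsα : s ^ 2 = α)
    (hθ : 1 < σ * s * (tau f - 1)) :
    ∃ ε c : ℝ, 0 < ε ∧ 0 < c ∧ ∀ᶠ N : ℕ in atTop, ∀ z : ℝ, |z - (1 + σ * s) ^ 2 * N| ≤ ε * N →
      ∀ u : Vec N, ‖u‖ = 1 →
        ∫ g, (statSet σ z).indicator (fun g => Real.exp (∑ a, f ⟪g a, u⟫)) g
            ∂patterns N ⌊α * N⌋₊
          ≤ Real.exp (ann f) ^ ⌊α * N⌋₊ * Real.exp (-(c * N)) := by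
  set τ := tau f with hτ
  have hτ0 : 0 ≤ τ := tau_nonneg
  have hα : 0 < α := hsα ▸ by positivity
  set z0 := (1 + σ * s) ^ 2 with hz0
  have hsσ : 0 < s + σ := by rcases hσ with rfl | ⟨rfl, h1⟩ <;> linarith
  -- slack at the fixed point
  set G0 := σ * ((1 + σ * 1 / s) * α * τ - z0) with hG0
  have hG0pos : 0 < G0 := by
    have : G0 = (s + σ) * (σ * s * (τ - 1) - 1) := by
      rw [hG0, hz0, ← hsα]; field_simp
      rcases hσ with rfl | ⟨rfl, _⟩ <;> ring
    rw [this]; exact mul_pos hsσ (by linarith)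
  set δ := min (1/2) (G0 / (4 * (s * τ + 1))) with hδ
  have hδ0 : 0 < δ := lt_min (by norm_num) (by positivity)
  have hδG : δ * (4 * (s * τ + 1)) ≤ G0 := (le_div_iff₀ (by positivity)).1 (min_le_right _ _)
  obtain ⟨a, ha1, ha2, ε₁, c₁, hε₁, hc₁, hR⟩ := reach_all hσ hs hsα hz0 (show 1 - δ < 1 by linarith)
  set φ := 1 + σ * a / s with hφ
  have hφ0 : 0 ≤ φ := by
    have : -1 ≤ σ * a / s := by
      rw [le_div_iff₀ hs]
      have : δ ≤ 1/2 := min_le_left _ _
      rcases hσ with rfl | ⟨rfl, h1⟩ <;> linarith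
    rw [hφ]; linarith
  have hφ2 : G0 - δ * (s * τ) ≤ σ * (φ * α * τ - z0) := by
    have : σ * (φ * α * τ - z0) = G0 - (1 - a) * (s * τ) * σ ^ 2 := by
      rw [hG0, hφ, ← hsα]; field_simp; ring
    rw [this, show σ ^ 2 = 1 by rcases hσ with rfl | ⟨rfl, _⟩ <;> norm_num, mul_one]
    have := mul_le_mul_of_nonneg_right (show 1 - a ≤ δ by linarith) (mul_nonneg hs.le hτ0)
    linarith
  set ε := min ε₁ (G0 / (4 * (1 + φ + φ * τ))) with hε
  have hε0 : 0 < ε := lt_min hε₁ (by positivity)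
  have hεG : ε * (4 * (1 + φ + φ * τ)) ≤ G0 := (le_div_iff₀ (by positivity)).1 (min_le_right _ _)
  have hεε₁ : ε ≤ ε₁ := min_le_left _ _
  obtain ⟨c₀, hc₀, hconc⟩ := conc_weighted hf hB hε0 hα.le
  refine ⟨ε, min c₀ c₁ / 2, hε0, by positivity, ?_⟩
  filter_upwards [hR, exp_three (lt_min hc₀ hc₁),
    (tendsto_natCast_atTop_atTop (R := ℝ)).eventually (eventually_ge_atTop (1 / ε + 1)),
    eventually_gt_atTop 0] with N hRN h3 hNε hN0
  intro z hz u hu
  set M := ⌊α * N⌋₊ with hM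
  have hN' : (0:ℝ) < N := by exact_mod_cast hN0
  have h1ε : 1 ≤ ε * N := by
    have : 1 / ε ≤ N := by linarith
    rw [div_le_iff₀ hε0] at this; linarith
  have hMle : (M:ℝ) ≤ α * N := Nat.floor_le (by positivity)
  have hMge : α * N - 1 ≤ M := by linarith [Nat.lt_floor_add_one (α * N)]
  have hε₁N := mul_le_mul_of_nonneg_right hεε₁ hN'.le
  obtain ⟨n, rfl⟩ : ∃ k, N = k + 1 := Nat.exists_eq_succ_of_ne_zero hN0.ne'
  set e := dirBasis u
  have he0 : e 0 = u := by
    have := dirBasis_smul u; rwa [hu, one_smul] at this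
  have hfl := flip_preserving (n := M) e
  set W := fun z : Fin M → ℝ => Real.exp (∑ a, f (z a))
  set F := (statSet (N := n + 1) (M := M) σ z).indicator fun g => Real.exp (∑ a, f ⟪g a, u⟫)
  have hWm : Measurable fun g : Fin M → Vec (n+1) => Real.exp (∑ a, f ⟪g a, u⟫) :=
    Real.measurable_exp.comp (Finset.measurable_sum _ fun a _ => hf.comp (by fun_prop))
  have hFm : Measurable F := hWm.indicator (measurable_statSet σ z)
  have hFb : ∀ g, |F g| ≤ Real.exp (M * B) := fun g => by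
    rw [abs_of_nonneg (Set.indicator_nonneg (fun _ _ => (exp_pos _).le) g)]
    refine Set.indicator_le' (fun g _ => exp_le_exp.2 ?_) (fun g _ => (exp_pos _).le) g
    exact (Finset.sum_le_sum fun a _ => (abs_le.1 (hB _)).2).trans (by simp)
  rw [← hfl.map_eq, integral_map hfl.measurable.aemeasurable hFm.aestronglyMeasurable]
  have iF : Integrable (fun y => F (flipB e y)) (patterns M (n + 1)) :=
    integrable_bdd (hFm.comp hfl.measurable) fun y => hFb _
  rw [integral_patterns_succ iF]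
  set Bad := {z : Fin M → ℝ | ε * (n+1:ℕ) < -σ * (∑ i, z i ^ 2 - M * tau f)} with hBad
  have hBadm : MeasurableSet Bad := measurableSet_lt measurable_const (by fun_prop)
  set p := Real.exp (-(c₁ * (n+1:ℕ)))
  -- pointwise bound for a fixed first column
  have key : ∀ y' : Fin n → Vec M, ∀ x : Vec M,
      F (flipB e (Fin.cons x y')) ≤ Bad.indicator W (WithLp.ofLp x) +
        W (WithLp.ofLp x) * (exSet σ φ z x)ᶜ.indicator (fun _ => (1:ℝ)) y' := by
    intro y' x
    have hW0 : 0 ≤ W (WithLp.ofLp x) := (exp_pos _).le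
    have hnn : 0 ≤ Bad.indicator W (WithLp.ofLp x) := Set.indicator_nonneg (fun _ _ => (exp_pos _).le) _
    have hnn2 : 0 ≤ W (WithLp.ofLp x) * (exSet σ φ z x)ᶜ.indicator (fun _ => (1:ℝ)) y' :=
      mul_nonneg hW0 (Set.indicator_nonneg (fun _ _ => zero_le_one) _)
    have hco : ∀ a, ⟪flipB e (Fin.cons x y') a, u⟫ = x a := by
      intro a
      rw [inner_flip_row, comb_succ, ← he0]
      have hz : ∀ i : Fin n, (EuclideanSpace.single (0 : Fin (n+1)) (1:ℝ)) i.succ = 0 := fun i => by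
        simp [Fin.succ_ne_zero]
      simp [comb, tailV, hz]
    by_cases hS : flipB e (Fin.cons x y') ∈ statSet σ z
    swap
    · simp only [F, Set.indicator_of_notMem hS]; linarith
    have hval : F (flipB e (Fin.cons x y')) = W (WithLp.ofLp x) := by
      simp only [F, Set.indicator_of_mem hS, hco, W]
    rw [hval]
    by_cases hbad : WithLp.ofLp x ∈ Bad
    · rw [Set.indicator_of_mem hbad]; linarith
    by_cases hex : y' ∈ exSet σ φ z x
    swap
    · rw [Set.indicator_of_mem (show y' ∈ (exSet σ φ z x)ᶜ from hex), mul_one]; linarith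
    exfalso
    simp only [hBad, Set.mem_ofPred_eq, not_lt] at hbad
    have hnx : ∑ i, x i ^ 2 = ‖x‖ ^ 2 := (EuclideanSpace.real_norm_sq_eq x).symm
    rw [hnx] at hbad
    obtain ⟨w', hw'⟩ := ex_child hex
    have h := hS (e.repr.symm (consV 1 w'))
    have hsum : ∑ a, ⟪flipB e (Fin.cons x y') a, e.repr.symm (consV 1 w')⟫ ^ 2 = ‖x + comb y' w'‖ ^ 2 := by
      simp [inner_flip_row, comb_succ, EuclideanSpace.real_norm_sq_eq]
    rw [hsum, norm_coords, one_pow] at h
    have t1 := mul_le_mul_of_nonneg_left hbad hφ0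
    have t2 : φ * τ * (σ * α * (n+1:ℕ) - 1) ≤ φ * τ * (σ * M) := by
      refine mul_le_mul_of_nonneg_left ?_ (mul_nonneg hφ0 hτ0)
      rcases hσ with rfl | ⟨rfl, _⟩ <;> linarith
    have t3 : σ * z ≤ σ * z0 * (n+1:ℕ) + ε * (n+1:ℕ) := by
      rcases hσ with rfl | ⟨rfl, _⟩ <;> linarith [(abs_le.1 hz).1, (abs_le.1 hz).2]
    have t4 := mul_le_mul_of_nonneg_right hφ2 hN'.le
    have t5 := mul_le_mul_of_nonneg_right hεG hN'.le
    have t6 := mul_le_mul_of_nonneg_right hδG hN'.le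
    have t7 : φ * τ * 1 ≤ φ * τ * (ε * (n+1:ℕ)) := mul_le_mul_of_nonneg_left h1ε (mul_nonneg hφ0 hτ0)
    have t8 : 0 < G0 * (n+1:ℕ) := mul_pos hG0pos hN'
    have t9 : 0 ≤ δ * (n+1:ℕ) := by positivity
    linarith
  have hW : ∀ x : Fin M → ℝ, W x ≤ Real.exp (M * B) := fun x =>
    exp_le_exp.2 ((Finset.sum_le_sum fun a _ => (abs_le.1 (hB _)).2).trans (by simp))
  have hWm' : Measurable W := Real.measurable_exp.comp (Finset.measurable_sum _ fun a _ => hf.comp (by fun_prop))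
  have iBad : Integrable (fun x : Vec M => Bad.indicator W (WithLp.ofLp x)) (stdGaussian (Vec M)) :=
    integrable_bdd ((hWm'.indicator hBadm).comp (ofLp_preserving M).measurable) (C := Real.exp (M * B)) fun x => by
      rw [abs_of_nonneg (Set.indicator_nonneg (fun _ _ => (exp_pos _).le) _)]
      exact Set.indicator_le' (fun x _ => hW x) (fun x _ => (exp_pos _).le) _
  have iW : Integrable (fun x : Vec M => W (WithLp.ofLp x)) (stdGaussian (Vec M)) :=
    integrable_bdd (hWm'.comp (ofLp_preserving M).measurable) fun x => by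
      rw [abs_of_pos (exp_pos _)]; exact hW _
  have hpair : Integrable (fun q : Vec M × (Fin n → Vec M) => F (flipB e (Fin.cons q.1 q.2)))
      ((stdGaussian (Vec M)).prod (patterns M n)) :=
    integrable_bdd ((hFm.comp hfl.measurable).comp measurable_cons) fun q => hFb _
  rw [← integral_integral_swap hpair]
  have hfib : ∀ x : Vec M, ∫ y', F (flipB e (Fin.cons x y')) ∂patterns M n ≤
      Bad.indicator W (WithLp.ofLp x) + W (WithLp.ofLp x) * p := by
    intro x
    have iI : Integrable ((exSet σ φ z x)ᶜ.indicator fun _ : Fin n → Vec M => (1:ℝ)) (patterns M n) :=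
      (integrable_const (1:ℝ)).indicator (measurable_exSet σ φ z x).compl
    refine (integral_mono_of_nonneg (Filter.Eventually.of_forall fun y' =>
      Set.indicator_nonneg (fun _ _ => (exp_pos _).le) _) ((integrable_const _).add (iI.const_mul _))
      (Filter.Eventually.of_forall fun y' => key y' x)).trans ?_
    simp only [Pi.add_apply]
    rw [integral_add (integrable_const _) (iI.const_mul _), integral_const_mul,
      integral_indicator_const _ (measurable_exSet σ φ z x).compl, smul_eq_mul, mul_one]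
    simp only [integral_const, probReal_univ, one_smul]
    refine add_le_add le_rfl (mul_le_mul_of_nonneg_left ?_ (exp_pos _).le)
    have hnwin : |(n:ℝ) - (n+1:ℕ)| ≤ ε₁ * (n+1:ℕ) := by
      rw [Nat.cast_add_one, sub_add_cancel_left, abs_neg, abs_one]
      push_cast at h1ε hε₁N; linarith
    have := hRN M n (abs_le.2 ⟨by linarith, by linarith⟩) hnwin z
      (le_trans hz hε₁N) x
    exact ENNReal.toReal_le_of_le_ofReal (exp_pos _).le this
  refine (integral_mono hpair.integral_prod_left (iBad.add (iW.mul_const p)) hfib).trans ?_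
  simp only [Pi.add_apply]
  rw [integral_add iBad (iW.mul_const p), integral_mul_const]
  have hmapW : ∀ G : (Fin M → ℝ) → ℝ, Measurable G →
      ∫ x : Vec M, G (WithLp.ofLp x) ∂stdGaussian (Vec M) = ∫ x, G x ∂Measure.pi (fun _ => γ) := by
    intro G hG
    rw [← (ofLp_preserving M).map_eq, integral_map (ofLp_preserving M).measurable.aemeasurable hG.aestronglyMeasurable]
  rw [hmapW _ (hWm'.indicator hBadm), hmapW _ hWm']
  have hWint : ∫ x, W x ∂Measure.pi (fun _ : Fin M => γ) = Real.exp (ann f) ^ M := by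
    simp only [W, Real.exp_sum]
    rw [integral_fintype_prod_eq_pow (fun t => Real.exp (f t)), Fintype.card_fin, exp_ann hf hB]
  rw [hWint]
  have hb := hconc (-σ) (by rcases hσ with rfl | ⟨rfl, _⟩ <;> norm_num) (n+1) M hMle
  refine (add_le_add hb le_rfl).trans ?_
  rw [← mul_add]
  refine mul_le_mul_of_nonneg_left (le_trans ?_ h3) (by positivity)
  have e1 : Real.exp (-(c₀ * (n+1:ℕ))) ≤ Real.exp (-(min c₀ c₁ * (n+1:ℕ))) :=
    exp_le_exp.2 (neg_le_neg (mul_le_mul_of_nonneg_right (min_le_left _ _) hN'.le))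
  have e2 : p ≤ Real.exp (-(min c₀ c₁ * (n+1:ℕ))) :=
    exp_le_exp.2 (neg_le_neg (mul_le_mul_of_nonneg_right (min_le_right _ _) hN'.le))
  linarith [exp_pos (-(min c₀ c₁ * ((n+1:ℕ):ℝ)))]

end Vale.Agent.P157.Exact
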