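import Vale.Agent.P157.Exact.Planted
import Vale.Agent.P157.Phase

open MeasureTheory ProbabilityTheory Real Filter
open scoped RealInnerProductSpace ENNReal Topology

namespace Vale.Agent.P157.Exact

variable {μ : ∀ N, Measure (Vec N)} {f : ℝ → ℝ} {B : ℝ}

lemma theta_eq (hf : Measurable f) (hB : ∀ s, |f s| ≤ B) :
    (∫ s, (s ^ 2 - 1) * Real.exp (f s) ∂γ) / Real.exp (ann f) = tau f - 1 := by
  simp only [sub_mul, one_mul]
  rw [integral_sub (integrable_sq_exp hf hB) (integrable_exp_f hf hB), ← exp_ann hf hB, sub_div,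
    div_self (exp_pos _).ne', tau]

/-- Above `1/θ²` the annealed value is missed by a linear amount. -/
lemma spike_strict (hμ : ∀ᶠ N in atTop, 0 < N ∧ Carried (μ N)) (hf : Measurable f)
    (hB : ∀ s, |f s| ≤ B) {α : ℝ} (hα : 0 < α) (hθ : 1 < α * (tau f - 1) ^ 2) :
    ∃ δ, 0 < δ ∧ ∀ᶠ N : ℕ in atTop, pressure (μ N) f ⌊α * N⌋₊ ≤ α * ann f - δ := by
  set s := √α
  have hs : 0 < s := Real.sqrt_pos.2 hα
  have hsα : s ^ 2 = α := Real.sq_sqrt hα.le
  have hB0 : 0 ≤ B := (abs_nonneg _).trans (hB 0)
  have hτ := tau_nonneg (f := f)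
  obtain ⟨σ, hσ, hσθ⟩ : ∃ σ : ℝ, (σ = 1 ∨ σ = -1 ∧ 1 < s) ∧ 1 < σ * s * (tau f - 1) := by
    rcases le_or_gt 0 (tau f - 1) with h | h
    · refine ⟨1, Or.inl rfl, ?_⟩
      have : 1 < (s * (tau f - 1)) ^ 2 := by rw [mul_pow, hsα]; linarith
      nlinarith [mul_nonneg hs.le h]
    · have h2 : 1 < (s * (1 - tau f)) ^ 2 := by rw [mul_pow, hsα]; linarith
      have h3 : 0 ≤ s * (1 - tau f) := mul_nonneg hs.le (by linarith)
      have h4 : 1 < s * (1 - tau f) := by nlinarith
      refine ⟨-1, Or.inr ⟨rfl, ?_⟩, by linarith⟩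
      linarith [mul_nonneg hs.le hτ]
  obtain ⟨ε₁, c, hε₁, hc, hev⟩ := planted_small hf hB hσ hs hsα hσθ
  set ε := min ε₁ (if σ = 1 then ε₁ else (1 + σ * s) ^ 2) with hε
  have hε0 : 0 < ε := by
    refine lt_min hε₁ ?_
    rcases hσ with rfl | ⟨rfl, h1⟩
    · simpa using hε₁
    · rw [if_neg (by norm_num)]
      have : 1 + -1 * s ≠ 0 := by linarith
      positivity
  set z0 := (1 + σ * s) ^ 2 + σ * ε with hz0
  have hz : 0 ≤ z0 := by
    rw [hz0]
    rcases hσ with rfl | ⟨rfl, h1⟩
    · positivity
    · have : ε ≤ (1 + -1 * s) ^ 2 := by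
        have := min_le_right ε₁ (if (-1:ℝ) = 1 then ε₁ else (1 + -1 * s) ^ 2)
        rw [← hε, if_neg (by norm_num)] at this; exact this
      linarith
  have hσα : σ = 1 ∨ σ = -1 ∧ 1 < α := by
    rcases hσ with h | ⟨h, h1⟩
    · exact Or.inl h
    · exact Or.inr ⟨h, by rw [← hsα]; nlinarith⟩
  obtain ⟨p, hp, hnull⟩ := stat_null hα rfl hσα hε0 hz0 hz
  set a := ann f
  set Q := fun N : ℕ => p N + Real.exp (-(c / 2 * N))
  have hQ : Tendsto Q atTop (𝓝 0) := by
    have := Real.tendsto_exp_atBot.comp (tendsto_neg_atTop_atBot.comp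
      ((tendsto_natCast_atTop_atTop (R := ℝ)).const_mul_atTop (show 0 < c / 2 by positivity)))
    simpa [Q, Function.comp_def] using hp.add this
  have lim : Tendsto (fun N : ℕ => (⌊α * N⌋₊ : ℝ) / N * a -
      (c / 2 - Q N * (2 * α * B + c / 2))) atTop (𝓝 (α * a - (c / 2 - 0 * (2 * α * B + c / 2)))) :=
    ((floor_ratio hα.le).mul_const a).sub (tendsto_const_nhds.sub (hQ.mul_const _))
  refine ⟨c / 4, by positivity, ?_⟩
  filter_upwards [hμ, hev, hnull, lim.eventually (eventually_le_nhds
    (show α * a - (c / 2 - 0 * (2 * α * B + c / 2)) < α * a - c / 4 by linarith))]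
    with N ⟨hN, hC⟩ hpl hnl hle
  have := hC.prob
  set M := ⌊α * N⌋₊
  have hN' : (0:ℝ) < N := by exact_mod_cast hN
  have hMle : (M:ℝ) ≤ α * N := Nat.floor_le (by positivity)
  set E := statSet (N := N) (M := M) σ (z0 * N)
  have hEm : MeasurableSet E := measurable_statSet _ _
  set Z := partition (M := M) (μ N) f
  have hZm : Measurable Z := measurable_partition hf
  have hzwin : |z0 * N - (1 + σ * s) ^ 2 * N| ≤ ε₁ * N := by
    rw [hz0, ← sub_mul, add_sub_cancel_left, abs_mul, abs_mul, abs_of_pos hε0, abs_of_pos hN']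
    have : |σ| = 1 := by rcases hσ with rfl | ⟨rfl, _⟩ <;> norm_num
    rw [this, one_mul]
    exact mul_le_mul_of_nonneg_right (min_le_left _ _) hN'.le
  -- first moment on the null event
  have h1 : ∫ g, E.indicator Z g ∂patterns N M ≤ Real.exp a ^ M * Real.exp (-(c * N)) := by
    set W := fun q : (Fin M → Vec N) × Vec N =>
      E.indicator (fun g => Real.exp (∑ a, f (⟪g a, q.2⟫ / √(N:ℝ)))) q.1
    have hW : W = (Prod.fst ⁻¹' E).indicator fun q : (Fin M → Vec N) × Vec N =>
        Real.exp (∑ a, f (⟪q.1 a, q.2⟫ / √(N:ℝ))) := by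
      funext q; by_cases h : q.1 ∈ E <;> simp [W, h]
    have hI : Integrable W ((patterns N M).prod (μ N)) := by
      rw [hW]
      refine (integrable_bdd (measurable_energy hf) (C := Real.exp (M * B)) fun q => ?_).indicator
        (measurable_fst hEm)
      rw [abs_exp]; exact exp_le_exp.2 (abs_le.1 (abs_sum_f_le hB _ _)).2
    have e : ∀ g, E.indicator Z g = ∫ x, W (g, x) ∂μ N := fun g => by
      by_cases h : g ∈ E <;> simp [W, h, Z, partition]
    simp only [e]
    rw [integral_integral_swap hI]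
    refine (integral_mono_ae hI.integral_prod_right (integrable_const (Real.exp a ^ M * Real.exp (-(c * N))))
      (hC.norm_eq.mono fun x hx => ?_)).trans (le_of_eq (by simp))
    have := hpl (z0 * N) hzwin ((√(N:ℝ))⁻¹ • x) (unit_of_norm hN hx)
    simpa only [W, arg_eq] using this
  set T := Real.exp a ^ M * Real.exp (-(c / 2 * N)) with hT
  have hT0 : 0 < T := by positivity
  set Bad := Eᶜ ∪ (E ∩ {g | T < Z g})
  have hBm : MeasurableSet Bad := hEm.compl.union (hEm.inter (measurableSet_lt measurable_const hZm))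
  have h2 : (patterns N M).real (E ∩ {g | T < Z g}) ≤ Real.exp (-(c / 2 * N)) := by
    have iEZ : Integrable (E.indicator Z) (patterns N M) := (integrable_partition hf hB).indicator hEm
    have := integral_mono ((integrable_const T).indicator (hEm.inter (measurableSet_lt measurable_const hZm))) iEZ
      fun g => by
        by_cases hg : g ∈ E ∩ {g | T < Z g}
        · rw [Set.indicator_of_mem hg, Set.indicator_of_mem hg.1]; exact le_of_lt hg.2
        · rw [Set.indicator_of_notMem hg]
          exact Set.indicator_nonneg (fun g _ => (partition_pos hf hB g).le) g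
    rw [integral_indicator_const _ (hEm.inter (measurableSet_lt measurable_const hZm)), smul_eq_mul] at this
    refine le_of_mul_le_mul_right ((this.trans h1).trans_eq ?_) hT0
    rw [hT, mul_left_comm, ← Real.exp_add]; ring_nf
  have hBadP : (patterns N M).real Bad ≤ Q N :=
    (measureReal_union_le _ _).trans (add_le_add hnl h2)
  set L := (M:ℝ) * a - c / 2 * N
  have hann := abs_le.1 (abs_ann_le hf hB)
  have hpt : ∀ g, Real.log (Z g) ≤ L + Bad.indicator (fun _ => (2 * α * B + c / 2) * N) g := by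
    intro g
    by_cases hg : g ∈ Bad
    · rw [Set.indicator_of_mem hg]
      have h' := (abs_le.1 (abs_log_partition (μ := μ N) hf hB g)).2
      have h3 := mul_le_mul_of_nonneg_left hann.1 (Nat.cast_nonneg (α := ℝ) M)
      have h4 := mul_le_mul_of_nonneg_right hMle hB0
      simp only [L, Z, a]
      linarith
    · rw [Set.indicator_of_notMem hg, add_zero]
      simp only [Bad, Set.mem_union, Set.mem_compl_iff, Set.mem_inter_iff, Set.mem_ofPred_eq, not_or,
        not_not, not_and, not_lt] at hg
      have h' := Real.log_le_log (partition_pos hf hB g) (hg.2 hg.1)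
      rwa [hT, Real.log_mul (by positivity) (exp_pos _).ne', Real.log_pow, Real.log_exp, Real.log_exp,
        ← sub_eq_add_neg] at h'
  have hphi : Phi (μ N) f M ≤ L + Q N * ((2 * α * B + c / 2) * N) := by
    refine (integral_mono (integrable_log_partition hf hB)
      ((integrable_const L).add ((integrable_const _).indicator hBm)) hpt).trans ?_
    simp only [Pi.add_apply]
    rw [integral_add (integrable_const L) ((integrable_const _).indicator hBm),
      integral_indicator_const _ hBm, smul_eq_mul, integral_const, probReal_univ, one_smul]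
    exact add_le_add le_rfl (mul_le_mul_of_nonneg_right hBadP (by positivity))
  refine le_trans ?_ hle
  rw [pressure_eq, div_le_iff₀ hN']
  refine hphi.trans (le_of_eq ?_)
  simp only [L]
  field_simp; ring

end Vale.Agent.P157.Exact
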