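import Vale.Agent.P157.Phase

open MeasureTheory ProbabilityTheory Real Filter
open scoped RealInnerProductSpace ENNReal Topology

namespace Vale.Agent.P157.Exact

variable {N : ℕ}

/-- lower bound used for the overlap rate function -/
noncomputable def rate (r t : ℝ) : ℝ := t ^ 2 / 2 + r * t ^ 4

/-- Large-deviation bound for the overlap. -/
def TailBound (μ : Measure (Vec N)) (r C : ℝ) : Prop :=
  ∀ᵐ x ∂μ, ∀ t : ℝ, 0 ≤ t → t ≤ 1 →
    μ.real {y | t * N ≤ |⟪x, y⟫|} ≤ C * (1 + √(N:ℝ) * t) * Real.exp (-(N * rate r t))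

lemma two_mul_poly_le_log {t : ℝ} (h0 : 0 ≤ t) (h1 : t < 1) :
    2 * (t + t ^ 3 / 3) ≤ Real.log ((1 + t) / (1 - t)) := by
  have := Real.sum_range_le_log_div h0 h1 2
  simp [Finset.sum_range_succ] at this
  norm_num at this
  linarith

lemma tanh_poly_le {t : ℝ} (h0 : 0 ≤ t) (h1 : t ≤ 1) : Real.tanh (t + t ^ 3 / 3) ≤ t := by
  rcases eq_or_lt_of_le h1 with rfl | h1'
  · exact (Real.tanh_lt_one _).le
  set l := t + t ^ 3 / 3
  have h : Real.exp (2 * l) ≤ (1 + t) / (1 - t) :=
    (Real.le_log_iff_exp_le (div_pos (by linarith) (by linarith))).1 (two_mul_poly_le_log h0 h1')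
  rw [le_div_iff₀ (by linarith)] at h
  have e : Real.exp (2 * l) * Real.exp (-l) = Real.exp l := by rw [← Real.exp_add]; ring_nf
  have h2 := mul_le_mul_of_nonneg_right h (exp_pos (-l)).le
  rw [mul_right_comm, e] at h2
  rw [Real.tanh_eq_sinh_div_cosh, Real.sinh_eq, Real.cosh_eq, div_le_iff₀ (by positivity)]
  linarith

lemma log_cosh_poly_le {t : ℝ} (h0 : 0 ≤ t) (h1 : t ≤ 1) :
    Real.log (Real.cosh (t + t ^ 3 / 3)) ≤ t ^ 2 / 2 + t ^ 4 / 4 := by
  set F := fun u : ℝ => u ^ 2 / 2 + u ^ 4 / 4 - Real.log (Real.cosh (u + u ^ 3 / 3))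
  have hder : ∀ u, HasDerivAt F (u + u ^ 3 - Real.tanh (u + u ^ 3 / 3) * (1 + u ^ 2)) u := by
    intro u
    have a1 : HasDerivAt (fun u : ℝ => u ^ 2 / 2) u u := by simpa using (hasDerivAt_pow 2 u).div_const 2
    have a2 : HasDerivAt (fun u : ℝ => u ^ 4 / 4) (u ^ 3) u := by
      simpa using (hasDerivAt_pow 4 u).div_const 4
    have a3 : HasDerivAt (fun u : ℝ => u + u ^ 3 / 3) (1 + u ^ 2) u := by
      refine (hasDerivAt_id u).add ?_
      simpa using (hasDerivAt_pow 3 u).div_const 3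
    have a4 := (a3.cosh.log (Real.cosh_pos _).ne')
    refine ((a1.add a2).sub a4).congr_deriv ?_
    rw [Real.tanh_eq_sinh_div_cosh]; ring
  have hmono : MonotoneOn F (Set.Icc 0 1) := by
    refine monotoneOn_of_hasDerivWithinAt_nonneg (convex_Icc 0 1)
      (fun u _ => (hder u).continuousAt.continuousWithinAt) (fun u _ => (hder u).hasDerivWithinAt) ?_
    intro u hu
    rw [interior_Icc] at hu
    have := mul_le_mul_of_nonneg_right (tanh_poly_le hu.1.le hu.2.le) (show 0 ≤ 1 + u ^ 2 by positivity)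
    linarith
  have := hmono ⟨le_rfl, zero_le_one⟩ ⟨h0, h1⟩ h0
  simp [F] at this
  linarith

lemma ising_coord : ∀ᵐ x ∂isingUniform N, ∀ i, |x i| = 1 := by
  have := isProb_rademacher
  unfold isingUniform
  refine (ae_map_iff (by fun_prop) ?_).2 ?_
  · rw [Set.ofPred_forall]
    exact MeasurableSet.iInter fun i => measurableSet_eq_fun (by fun_prop) measurable_const
  · refine ae_all_iff.2 fun i => ?_
    have h : ∀ᵐ t ∂((2 : ℝ≥0∞)⁻¹ • (Measure.dirac (-1 : ℝ) + Measure.dirac 1)), |t| = 1 := by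
      have : MeasurableSet {t : ℝ | ¬ |t| = 1} := (measurableSet_eq_fun (by fun_prop) measurable_const).compl
      rw [ae_iff, Measure.smul_apply, Measure.add_apply, Measure.dirac_apply' _ this,
        Measure.dirac_apply' _ this]
      simp
    have h2 := (Measure.tendsto_eval_ae_ae (μ := fun _ : Fin N =>
      (2 : ℝ≥0∞)⁻¹ • (Measure.dirac (-1 : ℝ) + Measure.dirac 1)) (i := i)).eventually h
    simpa using h2

lemma tail_ising (N : ℕ) : TailBound (isingUniform N) (1/12) 2 := by
  have := isProb_rademacher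
  have := (carried_ising N).prob
  filter_upwards [ising_coord] with x hx t h0 h1
  set l := t + t ^ 3 / 3 with hl
  have hl0 : 0 ≤ l := by positivity
  have hN0 : (0:ℝ) ≤ N := Nat.cast_nonneg N
  have one : ∀ σ : ℝ, |σ| = 1 →
      (isingUniform N).real {y | t * N ≤ σ * ⟪x, y⟫} ≤ Real.exp (-(N * rate (1/12) t)) := by
    intro σ hσ
    have hS : MeasurableSet {y : Vec N | t * N ≤ σ * ⟪x, y⟫} := measurableSet_le measurable_const (by fun_prop)
    set C := Real.exp (-(l * (t * N)))
    have iI : Integrable (fun y : Vec N => C * Real.exp (l * σ * ⟪x, y⟫)) (isingUniform N) := by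
      refine Integrable.const_mul ?_ C
      refine Integrable.of_bound (by fun_prop) (Real.exp (l * ‖x‖ * √(N:ℝ))) ?_
      filter_upwards [(carried_ising N).norm_eq] with y hy
      rw [Real.norm_eq_abs, abs_exp]
      refine exp_le_exp.2 ((le_abs_self _).trans ?_)
      rw [abs_mul, abs_mul, hσ, abs_of_nonneg hl0, mul_one, mul_assoc, ← hy]
      exact mul_le_mul_of_nonneg_left (abs_real_inner_le_norm x y) hl0
    have h := integral_mono ((integrable_const (1:ℝ)).indicator hS) iI fun y => by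
      by_cases hy : y ∈ {y : Vec N | t * N ≤ σ * ⟪x, y⟫}
      · rw [Set.indicator_of_mem hy]
        simp only [C, ← Real.exp_add]
        refine Real.one_le_exp ?_
        have := mul_le_mul_of_nonneg_left (show t * N ≤ σ * ⟪x, y⟫ from hy) hl0
        linarith
      · rw [Set.indicator_of_notMem hy]; positivity
    rw [integral_indicator_const _ hS, smul_eq_mul, mul_one, integral_const_mul] at h
    refine h.trans ?_
    rw [isingUniform, integral_map (by fun_prop) (by fun_prop)]
    have e : ∀ y : Fin N → ℝ, Real.exp (l * σ * ⟪x, WithLp.toLp 2 y⟫) =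
        ∏ i, Real.exp (l * σ * x i * y i) := by
      intro y; rw [← Real.exp_sum]; congr 1
      simp only [PiLp.inner_apply, RCLike.inner_apply, conj_trivial, Finset.mul_sum]
      refine Finset.sum_congr rfl fun i _ => ?_
      ring
    simp_rw [e]
    rw [integral_fintype_prod_eq_prod (fun i (u : ℝ) => Real.exp (l * σ * x i * u))]
    simp only [integral_rademacher]
    have hc : ∀ i, (Real.exp (l * σ * x i * -1) + Real.exp (l * σ * x i * 1)) / 2 = Real.cosh l := by
      intro i
      rw [← Real.cosh_abs l]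
      have : |l| = |l * σ * x i| := by rw [abs_mul, abs_mul, hσ, hx i, mul_one, mul_one]
      rw [this, Real.cosh_abs, Real.cosh_eq]; ring_nf
    simp only [hc, Finset.prod_const, Finset.card_univ, Fintype.card_fin, C]
    calc Real.exp (-(l * (t * N))) * Real.cosh l ^ N
        = Real.exp (-(l * (t * N)) + N * Real.log (Real.cosh l)) := by
          rw [Real.exp_add, Real.exp_nat_mul, Real.exp_log (Real.cosh_pos l)]
      _ ≤ _ := by
          refine exp_le_exp.2 ?_
          have := mul_le_mul_of_nonneg_left (log_cosh_poly_le h0 h1) hN0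
          rw [← hl] at this
          unfold rate
          rw [hl] at *
          linarith
  have hsub : {y : Vec N | t * N ≤ |⟪x, y⟫|} ⊆
      {y | t * N ≤ (1:ℝ) * ⟪x, y⟫} ∪ {y | t * N ≤ (-1:ℝ) * ⟪x, y⟫} := by
    intro y hy
    rcases abs_choice (⟪x, y⟫ : ℝ) with h | h <;> simp only [Set.mem_ofPred_eq, h] at hy
    · left; simpa using hy
    · right; simpa using hy
  refine (measureReal_mono hsub).trans ((measureReal_union_le _ _).trans ?_)
  have := one 1 abs_one
  have := one (-1) (by norm_num)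
  have h2 : 0 ≤ (√(N:ℝ) * t) * Real.exp (-(N * rate (1/12) t)) := by positivity
  linarith

lemma one_sub_le_exp {x : ℝ} (h0 : 0 ≤ x) : 1 - x ≤ Real.exp (-x - x ^ 2 / 2) := by
  rcases le_or_gt 1 x with h | h
  · linarith [exp_pos (-x - x ^ 2 / 2)]
  have h3 : Real.log (1 - x) ≤ -x - x ^ 2 / 2 := by
    set F := fun u : ℝ => -u - u ^ 2 / 2 - Real.log (1 - u)
    have hmono : MonotoneOn F (Set.Icc 0 x) := by
      have hder : ∀ u ∈ Set.Icc 0 x, HasDerivAt F (-1 - u + 1 / (1 - u)) u := by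
        intro u hu
        have a1 : HasDerivAt (fun u : ℝ => u ^ 2 / 2) u u := by simpa using (hasDerivAt_pow 2 u).div_const 2
        have a2 := ((hasDerivAt_id' u).const_sub 1).log (by linarith [hu.2])
        refine (((hasDerivAt_id' u).neg.sub a1).sub a2).congr_deriv ?_
        ring
      refine monotoneOn_of_hasDerivWithinAt_nonneg (convex_Icc 0 x)
        (fun u hu => (hder u hu).continuousAt.continuousWithinAt)
        (fun u hu => (hder u (interior_subset hu)).hasDerivWithinAt) ?_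
      intro u hu
      rw [interior_Icc] at hu
      have h1u : 0 < 1 - u := by linarith [hu.2]
      have : 1 + u ≤ 1 / (1 - u) := by rw [le_div_iff₀ h1u]; nlinarith [hu.1]
      linarith
    have := hmono ⟨le_rfl, h0⟩ ⟨h0, le_rfl⟩ h0
    simp [F] at this
    linarith
  calc 1 - x = Real.exp (Real.log (1 - x)) := (Real.exp_log (by linarith)).symm
    _ ≤ _ := exp_le_exp.2 h3

lemma sphere_tail_lt (hN : 0 < N) {x : Vec N} (hx : ‖x‖ = √(N:ℝ)) {t : ℝ} (h0 : 0 ≤ t) (h1 : t < 1) :
    (sphereUniform N).real {y | t * N ≤ |⟪x, y⟫|} ≤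
      Real.exp 2 * (1 + √(N:ℝ) * t) * Real.exp (-(N * rate (1/4) t)) := by
  have : NeZero N := ⟨hN.ne'⟩
  have hN' : (0:ℝ) < N := by exact_mod_cast hN
  have := prob_sphereUniform hN
  set v := (√(N:ℝ))⁻¹ • x with hv
  have hv1 : ‖v‖ = 1 := unit_of_norm hN hx
  set F : Metric.sphere (0 : Vec N) 1 → ℝ :=
    {u : Metric.sphere (0 : Vec N) 1 | t ^ 2 ≤ ⟪(u : Vec N), v⟫ ^ 2}.indicator fun _ => 1 with hF
  set P := (sphereUniform N).real {y | t * N ≤ |⟪x, y⟫|}
  set T := (volume : Measure (Vec N)).toSphere.real Set.univ with hT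
  have hS : MeasurableSet {u : Metric.sphere (0 : Vec N) 1 | t ^ 2 ≤ ⟪(u : Vec N), v⟫ ^ 2} :=
    measurableSet_le measurable_const (by fun_prop)
  have hP : T * P = ∫ u, F u ∂(volume : Measure (Vec N)).toSphere := by
    have hm : MeasurableSet {y : Vec N | t * N ≤ |⟪x, y⟫|} := measurableSet_le measurable_const (by fun_prop)
    have hset : (fun u : Metric.sphere (0 : Vec N) 1 => √(N:ℝ) • (u : Vec N)) ⁻¹' {y | t * N ≤ |⟪x, y⟫|}
        = {u : Metric.sphere (0 : Vec N) 1 | t ^ 2 ≤ ⟪(u : Vec N), v⟫ ^ 2} := by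
      ext u
      have e : ⟪x, √(N:ℝ) • (u : Vec N)⟫ = N * ⟪(u : Vec N), v⟫ := by
        rw [hv, inner_smul_right, inner_smul_right, real_inner_comm x]
        have hs : √(N:ℝ) ≠ 0 := by positivity
        field_simp
        linear_combination (⟪x, (u : Vec N)⟫ : ℝ) * (Real.mul_self_sqrt hN'.le)
      simp only [Set.mem_preimage, Set.mem_ofPred_eq, e, abs_mul, abs_of_pos hN', mul_comm t,
        mul_le_mul_iff_right₀ hN']
      rw [← sq_le_sq₀ h0 (abs_nonneg _), sq_abs]
    simp only [P, sphereUniform, measureReal_def]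
    rw [Measure.map_apply (by fun_prop) hm, hset, hF, integral_indicator_const _ hS, smul_eq_mul, mul_one,
      Measure.smul_apply, smul_eq_mul, ENNReal.toReal_mul, ENNReal.toReal_inv, hT, measureReal_def,
      measureReal_def, ← mul_assoc, mul_inv_cancel₀, one_mul]
    have : Nontrivial (Vec N) := Module.nontrivial_of_finrank_pos (R := ℝ) (by simpa using hN)
    exact (ENNReal.toReal_pos (fun h => Measure.toSphere_ne_zero _ (Measure.measure_univ_eq_zero.1 h))
      (measure_ne_top _ _)).ne'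
  set R : ℝ → ℝ := fun r => Real.exp (-r ^ 2 / 2) with hR
  set G : Vec N → ℝ :=
    fun y => ({y : Vec N | t ^ 2 ≤ ⟪‖y‖⁻¹ • y, v⟫ ^ 2}.indicator (fun _ => 1) y) * R ‖y‖ with hG
  have hpol := polar_identity (N := N) (F := F) (R := R) (G := G) fun y hy => by
    simp [hG, hF, Set.indicator_apply]
  set ξ := 1 / (1 + N * t ^ 2) with hξ
  have hden : 0 < 1 + (N:ℝ) * t ^ 2 := by positivity
  have hξ0 : 0 < ξ := by positivity
  have hξ1 : ξ ≤ 1 := by rw [hξ, div_le_one hden]; linarith [mul_nonneg hN'.le (sq_nonneg t)]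
  have hu : 0 < 1 - t ^ 2 := by nlinarith
  set s := (1 - ξ) / (2 * (1 - t ^ 2)) with hs
  have hs0 : 0 ≤ s := div_nonneg (by linarith) (by positivity)
  set b1 := ξ / 2 with hb1
  set b2 := (1 - ξ * t ^ 2) / (2 * (1 - t ^ 2)) with hb2
  have e1 : s + (-(s * t ^ 2) - 1/2) = -b1 := by rw [hs, hb1]; field_simp; ring
  have e2 : -(s * t ^ 2) - 1/2 = -b2 := by rw [hs, hb2]; field_simp; ring
  have hξt : ξ * t ^ 2 ≤ 1 / (N + 1) := by
    rw [hξ, div_mul_eq_mul_div, one_mul, div_le_div_iff₀ hden (by positivity)]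
    have : t ^ 2 ≤ 1 := by linarith
    linarith
  have hb2pos : 0 < b2 := by
    refine div_pos ?_ (by positivity)
    have : 1 / ((N:ℝ) + 1) < 1 := by rw [div_lt_one (by positivity)]; linarith
    linarith
  have hb1pos : 0 < b1 := by positivity
  set S0 := √(2 * π) with hS0
  have hRint : ∫ y : Vec N, R ‖y‖ ∂volume = S0 ^ N := by
    have h := integral_exp_dir v hv1 0 (-1/2)
    have e3 : (fun y : Vec N => Real.exp (0 * ⟪y, v⟫ ^ 2 + -1/2 * ‖y‖ ^ 2)) = fun y => R ‖y‖ := by
      funext y; simp only [hR]; ring_nf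
    rw [e3, zero_add, integral_exp_sq_coef (b := 1/2) _ (by norm_num), ← pow_succ',
      Nat.sub_add_cancel hN] at h
    rw [h, hS0]; congr 2; ring
  have hGle : ∫ y, G y ∂volume ≤ √(π / b1) * √(π / b2) ^ (N - 1) := by
    have hi := integrable_exp_dir v hv1 (c := s) (d := -(s * t ^ 2) - 1/2) (by linarith) (by linarith)
    have h := integral_exp_dir v hv1 s (-(s * t ^ 2) - 1/2)
    rw [integral_exp_sq_coef (b := b1) _ e1, integral_exp_sq_coef (b := b2) _ e2] at h
    refine (integral_mono_of_nonneg (Filter.Eventually.of_forall fun y => mul_nonneg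
      (Set.indicator_nonneg (fun _ _ => zero_le_one) y) (exp_pos _).le) hi
      (Filter.Eventually.of_forall fun y => ?_)).trans_eq h
    simp only [hG, hR]
    by_cases hy : y ∈ {y : Vec N | t ^ 2 ≤ ⟪‖y‖⁻¹ • y, v⟫ ^ 2}
    · rw [Set.indicator_of_mem hy, one_mul]
      refine exp_le_exp.2 ?_
      simp only [Set.mem_ofPred_eq, real_inner_smul_left, mul_pow, inv_pow] at hy
      have : t ^ 2 * ‖y‖ ^ 2 ≤ ⟪y, v⟫ ^ 2 := by
        rcases eq_or_ne y 0 with rfl | h
        · simp
        · have hpos : 0 < ‖y‖ ^ 2 := by have := norm_pos_iff.2 h; positivity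
          rw [← le_div_iff₀ hpos, div_eq_inv_mul]; exact hy
      have := mul_le_mul_of_nonneg_left this hs0
      linarith
    · rw [Set.indicator_of_notMem hy, zero_mul]; positivity
  have hT0 : 0 < T := by
    have : Nontrivial (Vec N) := Module.nontrivial_of_finrank_pos (R := ℝ) (by simpa using hN)
    rw [hT, measureReal_def]
    exact ENNReal.toReal_pos (fun h => Measure.toSphere_ne_zero _ (Measure.measure_univ_eq_zero.1 h))
      (measure_ne_top _ _)
  have hPle : P ≤ √(π / b1) * √(π / b2) ^ (N - 1) / S0 ^ N := by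
    rw [hRint, ← hP] at hpol
    rw [le_div_iff₀ (by positivity)]
    have h' := mul_le_mul_of_nonneg_left hGle hT0.le
    rw [hpol, mul_assoc] at h'
    exact le_of_mul_le_mul_left h' hT0
  refine hPle.trans ?_
  have hsplit : √(π / b1) * √(π / b2) ^ (N - 1) / S0 ^ N =
      √(1 + N * t ^ 2) * √((1 - t ^ 2) / (1 - ξ * t ^ 2)) ^ (N - 1) := by
    have a1 : √(π / b1) = S0 * √(1 + N * t ^ 2) := by
      rw [hS0, ← Real.sqrt_mul (by positivity)]; congr 1; rw [hb1, hξ]; field_simp
    have a2 : √(π / b2) = S0 * √((1 - t ^ 2) / (1 - ξ * t ^ 2)) := by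
      rw [hS0, ← Real.sqrt_mul (by positivity)]; congr 1; rw [hb2]; field_simp
    have hS : S0 ^ N = S0 * S0 ^ (N - 1) := by rw [← pow_succ', Nat.sub_add_cancel hN]
    rw [a1, a2, mul_pow, hS]
    have : S0 ≠ 0 := by positivity
    field_simp
  rw [hsplit]
  set u := ξ * t ^ 2
  have hu0 : 0 ≤ u := by positivity
  have hu1 : u < 1 := by
    have : 1 / ((N:ℝ) + 1) < 1 := by rw [div_lt_one (by positivity)]; linarith
    linarith
  have hun : u / (1 - u) ≤ 1 / N := by
    rw [div_le_div_iff₀ (by linarith) hN']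
    rw [le_div_iff₀ (by positivity)] at hξt
    linarith
  have hq : √((1 - t ^ 2) / (1 - u)) ≤ Real.exp ((-t ^ 2 - t ^ 4 / 2 + 1 / N) / 2) := by
    rw [Real.exp_half]
    refine Real.sqrt_le_sqrt ?_
    rw [show -t ^ 2 - t ^ 4 / 2 + 1 / (N:ℝ) = (-(t^2) - (t^2)^2 / 2) + 1 / N by ring, Real.exp_add,
      div_eq_mul_inv]
    refine mul_le_mul (one_sub_le_exp (sq_nonneg t)) ?_ (by positivity) (exp_pos _).le
    calc (1 - u)⁻¹ = 1 + u / (1 - u) := by
          have : 1 - u ≠ 0 := by linarith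
          rw [eq_comm, one_add_div this]; ring
      _ ≤ Real.exp (u / (1 - u)) := by linarith [Real.add_one_le_exp (u / (1 - u))]
      _ ≤ _ := exp_le_exp.2 hun
  have hsq : √(1 + N * t ^ 2) ≤ 1 + √(N:ℝ) * t := by
    rw [Real.sqrt_le_left (by positivity)]
    have := Real.sq_sqrt hN'.le
    nlinarith [mul_nonneg (Real.sqrt_nonneg (N:ℝ)) h0]
  refine (mul_le_mul hsq (pow_le_pow_left₀ (Real.sqrt_nonneg _) hq _) (by positivity) (by positivity)).trans ?_
  rw [← Real.exp_nat_mul, mul_comm (Real.exp 2), mul_assoc, ← Real.exp_add]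
  refine mul_le_mul_of_nonneg_left (exp_le_exp.2 ?_) (by positivity)
  have hN1 : ((N - 1 : ℕ) : ℝ) = N - 1 := by
    rw [Nat.cast_sub (Nat.one_le_iff_ne_zero.2 hN.ne')]; simp
  rw [hN1]
  unfold rate
  have : ((N:ℝ) - 1) * (1 / N) ≤ 1 := by rw [mul_one_div, div_le_one hN']; linarith
  have : t ^ 2 ≤ 1 := by linarith
  have : t ^ 4 ≤ 1 := by
    rw [show t ^ 4 = (t^2)^2 by ring]; exact pow_le_one₀ (sq_nonneg t) (by linarith)
  linarith

lemma tail_sphere (hN : 0 < N) : TailBound (sphereUniform N) (1/4) (Real.exp 2) := by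
  have := (carried_sphere hN).prob
  filter_upwards [(carried_sphere hN).norm_eq] with x hx t h0 h1
  rcases eq_or_lt_of_le h1 with rfl | h1'
  swap
  · exact sphere_tail_lt hN hx h0 h1'
  set g := fun t : ℝ => Real.exp 2 * (1 + √(N:ℝ) * t) * Real.exp (-(N * rate (1/4) t))
  have hg : Tendsto g (𝓝[<] 1) (𝓝 (g 1)) := by
    refine tendsto_nhdsWithin_of_tendsto_nhds (Continuous.tendsto ?_ 1)
    simp only [g, rate]; fun_prop
  refine ge_of_tendsto hg ?_
  filter_upwards [Ioo_mem_nhdsLT zero_lt_one] with s hs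
  refine le_trans (measureReal_mono fun y hy => ?_) (sphere_tail_lt hN hx hs.1.le hs.2)
  simp only [Set.mem_ofPred_eq] at hy ⊢
  refine le_trans (mul_le_mul_of_nonneg_right hs.2.le (Nat.cast_nonneg _)) hy

end Vale.Agent.P157.Exact
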