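import Vale.Agent.P157.Exact.Strict
import Vale.Agent.P157.Exact.Moment
import Vale.Agent.P157.Exact.Hermite

open MeasureTheory ProbabilityTheory Real Filter
open scoped RealInnerProductSpace ENNReal Topology

namespace Vale.Agent.P157.Exact

variable {μ : ∀ N, Measure (Vec N)} {f : ℝ → ℝ} {B : ℝ}

/-- configuration space together with its fourth-order rate constant -/
def Space (μ : ∀ N, Measure (Vec N)) (r : ℝ) : Prop :=
  (μ = isingUniform ∧ r = 1/12) ∨ (μ = sphereUniform ∧ r = 1/4)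

lemma Space.mem {r : ℝ} (h : Space μ r) : μ = isingUniform ∨ μ = sphereUniform := h.imp And.left And.left

lemma Space.data {r : ℝ} (h : Space μ r) :
    0 ≤ r ∧ r ≤ 1 ∧ ∃ C, 0 ≤ C ∧ ∀ᶠ N in atTop, TailBound (μ N) r C := by
  rcases h with ⟨rfl, rfl⟩ | ⟨rfl, rfl⟩
  · exact ⟨by norm_num, by norm_num, 2, by norm_num, Filter.Eventually.of_forall tail_ising⟩
  · exact ⟨by norm_num, by norm_num, Real.exp 2, (exp_pos _).le, (eventually_gt_atTop 0).mono fun N hN => tail_sphere hN⟩

lemma memLp_expf (hf : Measurable f) (hB : ∀ s, |f s| ≤ B) : MemLp (fun s => Real.exp (f s)) 2 γ :=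
  MemLp.of_bound (Real.measurable_exp.comp hf).aestronglyMeasurable (Real.exp B)
    (Filter.Eventually.of_forall fun t => by
      rw [Real.norm_eq_abs, abs_exp]; exact exp_le_exp.2 (abs_le.1 (hB t)).2)

lemma exp_two (f : ℝ → ℝ) : (fun s => Real.exp (2 * f s)) = fun s => Real.exp (f s) ^ 2 := by
  funext s; rw [← Real.exp_nat_mul]; norm_num

/-- relative variance of the weight -/
noncomputable def excessVar (f : ℝ → ℝ) : ℝ :=
  (∫ s, Real.exp (2 * f s) ∂γ) / Real.exp (ann f) ^ 2 - 1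

lemma excessVar_nonneg (hf : Measurable f) (hB : ∀ s, |f s| ≤ B) : 0 ≤ excessVar f := by
  have h := memLp_expf hf hB
  set m := Real.exp (ann f)
  have hm : 0 < m := exp_pos _
  have i1 : Integrable (fun s => (2 * m) * Real.exp (f s)) γ := (h.integrable one_le_two).const_mul _
  have i2 : Integrable (fun s => Real.exp (f s) ^ 2 - (2 * m) * Real.exp (f s)) γ := h.integrable_sq.sub i1
  have h0 : 0 ≤ ∫ s, (Real.exp (f s) - m) ^ 2 ∂γ := integral_nonneg fun s => sq_nonneg _
  have e : ∫ s, (Real.exp (f s) - m) ^ 2 ∂γ = ∫ s, Real.exp (f s) ^ 2 ∂γ - m ^ 2 := by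
    have : ∀ s, (Real.exp (f s) - m) ^ 2 = Real.exp (f s) ^ 2 - (2 * m) * Real.exp (f s) + m ^ 2 :=
      fun s => by ring
    simp only [this]
    rw [integral_add i2 (integrable_const _), integral_sub h.integrable_sq i1, integral_const_mul,
      ← exp_ann hf hB]
    simp [m]; ring
  rw [e] at h0
  rw [excessVar, exp_two, sub_nonneg, le_div_iff₀ (by positivity), one_mul]
  linarith

lemma not_const_of_excessVar (hf : Measurable f) (hB : ∀ s, |f s| ≤ B) (h : excessVar f ≠ 0) :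
    ¬ ∃ c, f =ᵐ[γ] fun _ => c := by
  rintro ⟨c, hc⟩
  apply h
  have e1 : ∫ s, Real.exp (f s) ∂γ = Real.exp c := by
    rw [integral_congr_ae (hc.mono fun s hs => by rw [hs])]; simp
  have e2 : ∫ s, Real.exp (2 * f s) ∂γ = Real.exp c ^ 2 := by
    rw [integral_congr_ae (hc.mono fun s hs => by rw [hs]), ← Real.exp_nat_mul]; simp
  rw [excessVar, exp_ann hf hB, e1, e2, div_self (by positivity), sub_self]

lemma theta_zero_of_const (hf : Measurable f) (hB : ∀ s, |f s| ≤ B) {c : ℝ} (hc : f =ᵐ[γ] fun _ => c) :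
    tau f = 1 := by
  have e1 : ∫ s, Real.exp (f s) ∂γ = Real.exp c := by
    rw [integral_congr_ae (hc.mono fun s hs => by rw [hs])]; simp
  have e2 : ∫ s, s ^ 2 * Real.exp (f s) ∂γ = Real.exp c := by
    rw [integral_congr_ae (hc.mono fun s hs => by rw [hs]), integral_mul_const, integral_sq_gauss, one_mul]
  rw [tau, exp_ann hf hB, e1, e2, div_self (exp_pos c).ne']

/-- closedness of the annealed phase -/
lemma tendsto_of_lt (h : μ = isingUniform ∨ μ = sphereUniform) (hf : Measurable f)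
    (hB : ∀ s, |f s| ≤ B) (hnc : ¬ ∃ c, f =ᵐ[γ] fun _ => c) {α : ℝ} (hα : 0 < α)
    (H : ∀ β, 0 < β → β < α → Tendsto (fun N : ℕ => pressure (μ N) f ⌊β * N⌋₊) atTop (𝓝 (β * ann f))) :
    Tendsto (fun N : ℕ => pressure (μ N) f ⌊α * N⌋₊) atTop (𝓝 (α * ann f)) := by
  obtain ⟨αc, h0, hiff, -, -⟩ := phase h hf hB hnc
  refine (hiff α hα).2 (le_of_forall_lt_imp_le_of_dense fun β hβ => ?_)
  rcases le_or_gt β 0 with hb | hb
  · linarith
  · exact (hiff β hb).1 (H β hb hβ)

lemma annealed_two {r : ℝ} (h : Space μ r) (hf : Measurable f) (hB : ∀ s, |f s| ≤ B)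
    (h1 : ∫ s, s * Real.exp (f s) ∂γ = 0) {α : ℝ} (hα : 0 < α) (hsmall : 2 * α * excessVar f ≤ 1) :
    Tendsto (fun N : ℕ => pressure (μ N) f ⌊α * N⌋₊) atTop (𝓝 (α * ann f)) := by
  obtain ⟨hr0, hr1, C, hC, htail⟩ := h.data
  have ha := excessVar_nonneg hf hB
  have main : ∀ β, 0 < β → 2 * β * excessVar f < 1 →
      Tendsto (fun N : ℕ => pressure (μ N) f ⌊β * N⌋₊) atTop (𝓝 (β * ann f)) := by
    intro β hβ hlt
    refine tendsto_of_pair (spaces_good h.mem).1 hr0 hr1 hC htail hf hB ha le_rfl (fun q hq => ?_)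
      hβ.le hlt (by linarith) (by rw [mul_zero]; positivity)
    refine (pairFun_le_two (memLp_expf hf hB) h1 hq).trans (le_of_eq ?_)
    rw [← exp_ann hf hB, excessVar, exp_two]
    have := (exp_pos (ann f)).ne'
    field_simp; ring
  rcases eq_or_lt_of_le ha with h0 | h0
  · exact main α hα (by rw [← h0]; norm_num)
  refine tendsto_of_lt h.mem hf hB (not_const_of_excessVar hf hB h0.ne') hα fun β hβ hlt => main β hβ ?_
  have := mul_lt_mul_of_pos_right hlt h0
  linarith

lemma annealed_iff {r : ℝ} (h : Space μ r) (hf : Measurable f) (hB : ∀ s, |f s| ≤ B)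
    (h1 : ∫ s, s * Real.exp (f s) ∂γ = 0) (h3 : ∫ s, (s ^ 3 - 3 * s) * Real.exp (f s) ∂γ = 0)
    (hθ : tau f - 1 ≠ 0) (htail : excessVar f - (tau f - 1) ^ 2 / 2 ≤ r * (tau f - 1) ^ 2)
    {α : ℝ} (hα : 0 < α) :
    Tendsto (fun N : ℕ => pressure (μ N) f ⌊α * N⌋₊) atTop (𝓝 (α * ann f)) ↔
      α * (tau f - 1) ^ 2 ≤ 1 := by
  obtain ⟨hr0, hr1, C, hC, hTB⟩ := h.data
  set θ := tau f - 1 with hθdef
  have hθ2 : 0 < θ ^ 2 := by positivity
  constructor
  · intro hT
    by_contra hlt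
    push Not at hlt
    obtain ⟨δ, hδ, hev⟩ := spike_strict (spaces_good h.mem).1 hf hB hα hlt
    linarith [le_of_tendsto hT hev]
  intro hle
  have hnc : ¬ ∃ c, f =ᵐ[γ] fun _ => c := fun ⟨c, hc⟩ => hθ (by
    rw [hθdef, theta_zero_of_const hf hB hc, sub_self])
  refine tendsto_of_lt h.mem hf hB hnc hα fun β hβ hlt => ?_
  have hρ : β * θ ^ 2 < 1 := lt_of_lt_of_le (mul_lt_mul_of_pos_right hlt hθ2) hle
  refine tendsto_of_pair (spaces_good h.mem).1 hr0 hr1 hC hTB hf hB (a := θ ^ 2 / 2) (b := r * θ ^ 2)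
    (by positivity) (by positivity) (fun q hq => ?_) hβ.le hρ (le_of_eq (by ring)) (le_of_eq (by ring))
  refine (pairFun_le_four (memLp_expf hf hB) h1 h3 hq).trans ?_
  have e : ∫ s, (s ^ 2 - 1) * Real.exp (f s) ∂γ = θ * Real.exp (ann f) := by
    rw [hθdef, ← theta_eq hf hB, div_mul_cancel₀ _ (exp_pos _).ne']
  have e2 : ∫ s, Real.exp (f s) ^ 2 ∂γ = Real.exp (ann f) ^ 2 * (1 + excessVar f) := by
    rw [excessVar, exp_two]
    have := (exp_pos (ann f)).ne'
    field_simp; ring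
  rw [← exp_ann hf hB, e, e2]
  have := mul_le_mul_of_nonneg_left htail
    (show 0 ≤ Real.exp (ann f) ^ 2 * q ^ 4 by rw [show q ^ 4 = (q ^ 2) ^ 2 by ring]; positivity)
  linarith

/-- the example family -/
noncomputable def bump (k s : ℝ) : ℝ := Real.log (1 + k * Real.exp (-(s ^ 2 / 4)))

lemma integral_gauss_mul (v : NNReal) (c : ℝ) (hv : v ≠ 0) (hc : 1 / (v:ℝ) = 1 + 2 * c) (g : ℝ → ℝ) :
    ∫ x, g x * Real.exp (-(c * x ^ 2)) ∂γ = √(v:ℝ) * ∫ x, g x ∂gaussianReal 0 v := by
  rw [γ, integral_gaussianReal_eq_integral_smul one_ne_zero, integral_gaussianReal_eq_integral_smul hv,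
    ← integral_const_mul]
  congr 1; funext x
  have hv' : (0:ℝ) < v := by positivity
  simp only [gaussianPDFReal_def, smul_eq_mul, NNReal.coe_one, sub_zero]
  have e : -x ^ 2 / (2 * (v:ℝ)) = -x ^ 2 / (2 * 1) + -(c * x ^ 2) := by
    rw [show -x ^ 2 / (2 * (v:ℝ)) = -x ^ 2 / 2 * (1 / v) by ring, hc]; ring
  rw [e, Real.exp_add, Real.sqrt_mul (by positivity) (v:ℝ), mul_one, mul_inv]
  field_simp

lemma bump_facts {k : ℝ} (hk : -1 < k) :
    Measurable (bump k) ∧ (∃ B, ∀ s, |bump k s| ≤ B) ∧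
    Real.exp (ann (bump k)) = 1 + k * √(2/3) ∧
    ∫ s, s * Real.exp (bump k s) ∂γ = 0 ∧ ∫ s, (s ^ 3 - 3 * s) * Real.exp (bump k s) ∂γ = 0 ∧
    (tau (bump k) - 1) = -(k * √(2/3)) / (3 * (1 + k * √(2/3))) ∧
    excessVar (bump k) = k ^ 2 * (√(1/2) - 2/3) / (1 + k * √(2/3)) ^ 2 := by
  set g := fun s : ℝ => Real.exp (-(s ^ 2 / 4)) with hg
  have hg0 : ∀ s, 0 < g s ∧ g s ≤ 1 := fun s =>
    ⟨exp_pos _, Real.exp_le_one_iff.2 (by linarith [sq_nonneg s])⟩
  set lo := min 1 (1 + k)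
  have hlo : 0 < lo := lt_min one_pos (by linarith)
  have hbd : ∀ s, lo ≤ 1 + k * g s ∧ 1 + k * g s ≤ 1 + |k| := by
    intro s
    constructor
    · rcases le_total 0 k with h | h
      · exact (min_le_left _ _).trans (by linarith [mul_nonneg h (hg0 s).1.le])
      · exact (min_le_right _ _).trans (by linarith [mul_le_mul_of_nonpos_left (hg0 s).2 h])
    · linarith [mul_le_mul (le_abs_self k) (hg0 s).2 (hg0 s).1.le (abs_nonneg k)]
  have hpos : ∀ s, 0 < 1 + k * g s := fun s => hlo.trans_le (hbd s).1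
  have hexp : ∀ s, Real.exp (bump k s) = 1 + k * g s := fun s => Real.exp_log (hpos s)
  have hm : Measurable (bump k) := by unfold bump; fun_prop
  have hB : ∀ s, |bump k s| ≤ |Real.log lo| + |Real.log (1 + |k|)| := by
    intro s
    rw [abs_le]
    constructor
    · linarith [Real.log_le_log hlo (hbd s).1, neg_abs_le (Real.log lo), abs_nonneg (Real.log (1 + |k|)),
        show bump k s = Real.log (1 + k * g s) from rfl]
    · linarith [Real.log_le_log (hpos s) (hbd s).2, le_abs_self (Real.log (1 + |k|)), abs_nonneg (Real.log lo),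
        show bump k s = Real.log (1 + k * g s) from rfl]
  have gi : ∀ φ : ℝ → ℝ, MemLp φ 2 γ → Integrable φ γ ∧ Integrable (fun s => φ s * g s) γ := fun φ hφ =>
    ⟨hφ.integrable one_le_two, (hφ.integrable one_le_two).mul_bdd (c := 1) (by fun_prop)
      (Filter.Eventually.of_forall fun s => by
        rw [Real.norm_eq_abs, abs_of_pos (hg0 s).1]; exact (hg0 s).2)⟩
  have split : ∀ φ : ℝ → ℝ, MemLp φ 2 γ →
      ∫ s, φ s * Real.exp (bump k s) ∂γ = ∫ s, φ s ∂γ + k * ∫ s, φ s * g s ∂γ := by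
    intro φ hφ
    obtain ⟨i1, i2⟩ := gi φ hφ
    simp only [hexp, mul_add, mul_one, mul_left_comm _ k]
    rw [integral_add i1 (i2.const_mul k), integral_const_mul]
  have hv : (2/3 : NNReal) ≠ 0 := by norm_num
  have G : ∀ φ : ℝ → ℝ, ∫ s, φ s * g s ∂γ = √(2/3) * ∫ s, φ s ∂gaussianReal 0 (2/3) := by
    intro φ
    have h := integral_gauss_mul (2/3) (1/4) hv (by push_cast; norm_num) φ
    push_cast at h
    rw [← h]; congr 1; funext s; simp only [hg]; ring_nf
  have g0 : ∫ s, g s ∂γ = √(2/3) := by simpa using G fun _ => 1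
  have g2 : ∫ s, s ^ 2 * g s ∂γ = 2/3 * √(2/3) := by
    rw [G fun s => s ^ 2]
    have h := variance_id_gaussianReal (μ := 0) (v := (2/3 : NNReal))
    rw [variance_eq_integral (by fun_prop)] at h
    simp only [id_eq, integral_id_gaussianReal, sub_zero] at h
    rw [h]; push_cast; ring
  have odd : ∀ φ : ℝ → ℝ, Measurable φ → (∀ s, φ (-s) = -φ s) → ∫ s, φ s ∂γ = 0 ∧ ∫ s, φ s * g s ∂γ = 0 := by
    intro φ hφ ho
    have z : ∀ F : ℝ → ℝ, Measurable F → (∀ s, F (-s) = -F s) → ∫ s, F s ∂γ = 0 := by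
      intro F hF hoF
      have h : γ.map (fun x => -x) = γ := by rw [γ, gaussianReal_map_neg, neg_zero]
      have e : ∫ x, F x ∂γ = ∫ x, F (-x) ∂γ := by
        conv_lhs => rw [← h, integral_map (by fun_prop) hF.aestronglyMeasurable]
      simp only [hoF, integral_neg] at e
      linarith
    refine ⟨z φ hφ ho, z _ (hφ.mul (by fun_prop)) fun s => ?_⟩
    simp only [hg, Pi.mul_apply, ho, neg_sq]; ring
  have hA : Real.exp (ann (bump k)) = 1 + k * √(2/3) := by
    rw [exp_ann hm hB]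
    have := split (fun _ => 1) (memLp_const 1)
    simp only [one_mul] at this
    rw [this, g0]; simp
  have hx : MemLp (fun x : ℝ => x) 2 γ := by simpa using memLp_pow 1
  refine ⟨hm, ⟨_, hB⟩, hA, ?_, ?_, ?_, ?_⟩
  · rw [split (fun s => s) hx, (odd (fun s => s) measurable_id fun s => rfl).1,
      (odd (fun s => s) measurable_id fun s => rfl).2]; ring
  · have ho := odd (fun s => s ^ 3 - 3 * s) (by fun_prop) fun s => by ring
    rw [split (fun s => s ^ 3 - 3 * s) ((memLp_pow 3).sub (hx.const_mul 3)), ho.1, ho.2]; ring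
  · rw [tau, hA, split (fun s => s ^ 2) (memLp_pow 2), g2, integral_sq_gauss]
    have : 1 + k * √(2/3) ≠ 0 := by rw [← hA]; exact (exp_pos _).ne'
    field_simp; ring
  · have gg : ∫ s, g s * g s ∂γ = √(1/2) := by
      have h := integral_gauss_mul (1/2) (1/2) (by norm_num) (by push_cast; norm_num) fun _ => 1
      push_cast at h
      simp only [one_mul, integral_const, probReal_univ, one_smul, mul_one] at h
      rw [← h]; congr 1; funext s; simp only [hg]; rw [← Real.exp_add]; ring_nf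
    have ig : Integrable g γ := by simpa using (gi (fun _ => 1) (memLp_const 1)).2
    have igg : Integrable (fun s => g s * g s) γ :=
      ig.mul_bdd (c := 1) (by fun_prop) (Filter.Eventually.of_forall fun s => by
        rw [Real.norm_eq_abs, abs_of_pos (hg0 s).1]; exact (hg0 s).2)
    have h2 : ∫ s, Real.exp (2 * bump k s) ∂γ = 1 + 2 * k * √(2/3) + k ^ 2 * √(1/2) := by
      have e : ∀ s, Real.exp (2 * bump k s) = 1 + ((2 * k) * g s + k ^ 2 * (g s * g s)) := fun s => by
        rw [two_mul, Real.exp_add, hexp]; ring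
      have j : Integrable (fun s => (2 * k) * g s + k ^ 2 * (g s * g s)) γ := (ig.const_mul _).add (igg.const_mul _)
      simp only [e]
      rw [integral_add (integrable_const 1) j, integral_add (ig.const_mul _) (igg.const_mul _),
        integral_const_mul, integral_const_mul, g0, gg]
      simp; ring
    have : 1 + k * √(2/3) ≠ 0 := by rw [← hA]; exact (exp_pos _).ne'
    rw [excessVar, h2, hA]
    have h23 := Real.sq_sqrt (show (0:ℝ) ≤ 2/3 by norm_num)
    field_simp
    linear_combination (-3 * k ^ 2) * h23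

end Vale.Agent.P157.Exact
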